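import Mathlib.MeasureTheory.Measure.Lebesgue.EqHaar
import Mathlib.MeasureTheory.Group.FundamentalDomain
import Mathlib.MeasureTheory.Measure.Lebesgue.Complex
import Mathlib.Analysis.InnerProductSpace.PiL2
import Mathlib.MeasureTheory.Integral.Lebesgue.Countable
import Mathlib.MeasureTheory.Function.Jacobian
import Mathlib.LinearAlgebra.Complex.FiniteDimensional
import Mathlib.Analysis.Calculus.FDeriv.Linear
import Mathlib.Analysis.Calculus.FDeriv.Add

/-! P281, project T-M, block M4 (helper364): measure theory. -/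

open Set Filter Metric MeasureTheory
open scoped Topology ENNReal Pointwise

noncomputable section

namespace Vale.Agent.P281.H364.TM

section Cover

variable {n : ℕ} {V : Type} [NormedAddCommGroup V] [NormedSpace ℝ V] [MeasurableSpace V]
  [BorelSpace V]

/-- the half open box -/
def box (n : ℕ) : Set (Fin n → ℝ) := {x | ∀ i, x i ∈ Ico (0 : ℝ) 1}

theorem measurableSet_box (n : ℕ) : MeasurableSet (box n) := by
  have : box n = univ.pi fun _ => Ico (0 : ℝ) 1 := by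
    ext x; simp [box]
  rw [this]
  exact MeasurableSet.univ_pi fun _ => measurableSet_Ico

/-- the fundamental domain -/
def fund (P : (Fin n → ℝ) ≃L[ℝ] V) : Set V := P '' box n

theorem measurableSet_fund (P : (Fin n → ℝ) ≃L[ℝ] V) : MeasurableSet (fund P) :=
  P.toHomeomorph.measurableEmbedding.measurableSet_image' (measurableSet_box n)

/-- a lattice vector -/
def lv (P : (Fin n → ℝ) ≃L[ℝ] V) (m : Fin n → ℤ) : V := P fun i => (m i : ℝ)

theorem box_disj {m m' : Fin n → ℤ} {x x' : Fin n → ℝ} (hx : x ∈ box n) (hx' : x' ∈ box n)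
    (h : (x + fun i => (m i : ℝ)) = x' + fun i => (m' i : ℝ)) : m = m' := by
  funext i
  have h1 := congrFun h i
  simp only [Pi.add_apply] at h1
  have h2 := hx i
  have h3 := hx' i
  have h4 : (m i : ℝ) - m' i < 1 := by linarith [h2.1, h3.2]
  have h5 : (m' i : ℝ) - m i < 1 := by linarith [h3.1, h2.2]
  have h6 : m i - m' i < 1 := by exact_mod_cast h4
  have h7 : m' i - m i < 1 := by exact_mod_cast h5
  omega

/-- If countably many sets cover `V` modulo the lattice, their total volume is at least that of the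
fundamental domain. -/
theorem cover_le (P : (Fin n → ℝ) ≃L[ℝ] V) (μ : Measure V) [μ.IsAddLeftInvariant] {ι : Type}
    [Countable ι] (W : ι → Set V) (hW : ∀ o, MeasurableSet (W o))
    (hcov : ∀ ζ : V, ∃ o, ∃ m : Fin n → ℤ, ζ + lv P m ∈ W o) :
    μ (fund P) ≤ ∑' o, μ (W o) := by
  classical
  have h1 : fund P ⊆ ⋃ o, ⋃ m : Fin n → ℤ, fund P ∩ {ζ | ζ + lv P m ∈ W o} := by
    intro ζ hζ
    obtain ⟨o, m, h⟩ := hcov ζ
    exact mem_iUnion₂.2 ⟨o, m, hζ, h⟩
  have hm : ∀ m : Fin n → ℤ, Measurable fun ζ : V => ζ + lv P m := fun m =>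
    (continuous_add_const _).measurable
  have h2 : ∀ o (m : Fin n → ℤ), μ (fund P ∩ {ζ | ζ + lv P m ∈ W o}) =
      μ ((fun ζ => lv P m + ζ) '' fund P ∩ W o) := by
    intro o m
    have h3 : (fun ζ => lv P m + ζ) '' fund P ∩ W o =
        (fun ζ => lv P m + ζ) '' (fund P ∩ {ζ | ζ + lv P m ∈ W o}) := by
      ext ζ
      constructor
      · rintro ⟨⟨ζ', h4, rfl⟩, h5⟩
        exact ⟨ζ', ⟨h4, by simpa [add_comm] using h5⟩, rfl⟩
      · rintro ⟨ζ', ⟨h4, h5⟩, rfl⟩
        exact ⟨⟨ζ', h4, rfl⟩, by simpa [add_comm] using h5⟩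
    rw [h3, image_add_left, measure_preimage_add]
  calc μ (fund P) ≤ μ (⋃ o, ⋃ m : Fin n → ℤ, fund P ∩ {ζ | ζ + lv P m ∈ W o}) := measure_mono h1
    _ ≤ ∑' o, μ (⋃ m : Fin n → ℤ, fund P ∩ {ζ | ζ + lv P m ∈ W o}) := measure_iUnion_le _
    _ ≤ ∑' o, ∑' m : Fin n → ℤ, μ (fund P ∩ {ζ | ζ + lv P m ∈ W o}) := by
        gcongr with o
        exact measure_iUnion_le _
    _ ≤ ∑' o, μ (W o) := by
        gcongr with o
        simp_rw [h2]
        rw [← measure_iUnion]
        · exact measure_mono (iUnion_subset fun m => inter_subset_right)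
        · intro m m' hmm
          refine Set.disjoint_left.2 ?_
          rintro _ ⟨⟨_, ⟨x, hx, rfl⟩, rfl⟩, _⟩ ⟨⟨_, ⟨x', hx', rfl⟩, h5⟩, _⟩
          apply hmm
          have h6 : P (x + fun i => (m i : ℝ)) = P (x' + fun i => (m' i : ℝ)) := by
            rw [map_add, map_add]
            have h7 : lv P m' + P x' = lv P m + P x := h5
            unfold lv at h7
            rw [add_comm (P x), add_comm (P x'), h7]
          exact box_disj hx hx' (P.injective h6)
        · intro m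
          refine MeasurableSet.inter ?_ (hW o)
          rw [image_add_left]
          exact (continuous_const_add _).measurable (measurableSet_fund P)

end Cover

section Div

/-- `∫ |t|^-2 = ∞` near `0` in `ℂ`. -/
theorem lint_top {r : ℝ} (hr : 0 < r) :
    ∫⁻ t in ball (0 : ℂ) r, (‖t‖ₑ ^ 2)⁻¹ = ∞ := by
  by_contra hne
  set I : ℝ → ℝ≥0∞ := fun r => ∫⁻ t in ball (0 : ℂ) r, (‖t‖ₑ ^ 2)⁻¹ with hI
  have hscale : I (r / 2) = I r := by
    have h1 : (ball (0 : ℂ) (r / 2)) = (fun t : ℂ => (2⁻¹ : ℝ) • t) '' ball (0 : ℂ) r := by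
      rw [image_smul, _root_.smul_ball (by norm_num : (2⁻¹ : ℝ) ≠ 0)]
      simp [div_eq_inv_mul]
    have h2 := lintegral_image_eq_lintegral_abs_det_fderiv_mul (volume : Measure ℂ)
      (s := ball (0 : ℂ) r) measurableSet_ball (f := fun t : ℂ => (2⁻¹ : ℝ) • t)
      (f' := fun _ => (2⁻¹ : ℝ) • ContinuousLinearMap.id ℝ ℂ)
      (fun x _ => ((ContinuousLinearMap.id ℝ ℂ).hasFDerivAt.const_smul (2⁻¹ : ℝ)).hasFDerivWithinAt)
      (fun x _ y _ h => smul_right_injective ℂ (by norm_num : (2⁻¹ : ℝ) ≠ 0) h)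
      (fun t => (‖t‖ₑ ^ 2)⁻¹)
    have h3 : |((2⁻¹ : ℝ) • ContinuousLinearMap.id ℝ ℂ : ℂ →L[ℝ] ℂ).det| = 1 / 4 := by
      have : ((2⁻¹ : ℝ) • ContinuousLinearMap.id ℝ ℂ : ℂ →L[ℝ] ℂ).det =
          LinearMap.det ((2⁻¹ : ℝ) • (LinearMap.id : ℂ →ₗ[ℝ] ℂ)) := rfl
      rw [this, LinearMap.det_smul, Complex.finrank_real_complex]
      simp
      norm_num
    simp only [hI]
    rw [h1, h2]
    refine lintegral_congr fun t => ?_
    rw [h3]
    show ENNReal.ofReal (1 / 4) * (‖(2⁻¹ : ℝ) • t‖ₑ ^ 2)⁻¹ = _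
    rw [enorm_smul, mul_pow, ENNReal.mul_inv (Or.inl (by simp)) (Or.inl (by simp)), ← mul_assoc]
    have h4 : ENNReal.ofReal (1 / 4) * (‖(2⁻¹ : ℝ)‖ₑ ^ 2)⁻¹ = 1 := by
      rw [Real.enorm_eq_ofReal (by norm_num), ← ENNReal.ofReal_pow (by norm_num),
        ← ENNReal.ofReal_inv_of_pos (by norm_num), ← ENNReal.ofReal_mul (by norm_num)]
      norm_num
    rw [h4, one_mul]
  have hsplit : I r = I (r / 2) + ∫⁻ t in ball (0 : ℂ) r \ ball (0 : ℂ) (r / 2), (‖t‖ₑ ^ 2)⁻¹ := by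
    simp only [hI]
    rw [← lintegral_union (measurableSet_ball.diff measurableSet_ball) disjoint_sdiff_right,
      union_sdiff_cancel (ball_subset_ball (by linarith))]
  have hpos : 0 < ∫⁻ t in ball (0 : ℂ) r \ ball (0 : ℂ) (r / 2), (‖t‖ₑ ^ 2)⁻¹ := by
    have h1 : ball ((3 / 4 * r : ℝ) : ℂ) (r / 8) ⊆ ball (0 : ℂ) r \ ball (0 : ℂ) (r / 2) := by
      intro t ht
      rw [mem_ball, dist_eq_norm] at ht
      have h2 : ‖((3 / 4 * r : ℝ) : ℂ)‖ = 3 / 4 * r := by
        rw [Complex.norm_real, Real.norm_of_nonneg (by positivity)]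
      have h3 := norm_sub_norm_le t ((3 / 4 * r : ℝ) : ℂ)
      have h4 := norm_sub_norm_le ((3 / 4 * r : ℝ) : ℂ) t
      rw [norm_sub_rev] at h4
      refine ⟨?_, ?_⟩
      · rw [mem_ball_zero_iff]; linarith
      · rw [mem_ball_zero_iff]; linarith
    refine lt_of_lt_of_le ?_ (lintegral_mono_set h1)
    have h2 : ∀ t ∈ ball ((3 / 4 * r : ℝ) : ℂ) (r / 8), ENNReal.ofReal ((r ^ 2)⁻¹) ≤
        (‖t‖ₑ ^ 2)⁻¹ := by
      intro t ht
      have h3 := (h1 ht).1
      rw [mem_ball_zero_iff] at h3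
      rw [ENNReal.ofReal_inv_of_pos (by positivity), ENNReal.inv_le_inv,
        ENNReal.ofReal_pow hr.le]
      gcongr
      rw [← ofReal_norm]
      exact ENNReal.ofReal_le_ofReal h3.le
    refine lt_of_lt_of_le ?_ (setLIntegral_mono' measurableSet_ball h2)
    rw [setLIntegral_const]
    refine ENNReal.mul_pos ?_ ?_
    · exact (ENNReal.ofReal_pos.2 (by positivity)).ne'
    · exact (measure_ball_pos volume _ (by positivity)).ne'
  rw [hscale] at hsplit
  have h5 : I r + 0 = I r + ∫⁻ t in ball (0 : ℂ) r \ ball (0 : ℂ) (r / 2), (‖t‖ₑ ^ 2)⁻¹ := by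
    rw [add_zero]; exact hsplit
  have h6 := (ENNReal.add_right_inj hne).1 h5
  exact hpos.ne h6

/-- `∫ |w_0|^-2 = ∞` near a point of `{w_0 = 0}` in `ℂ^m`. -/
theorem lint_top_pi {m : ℕ} {w₀ : Fin (m + 1) → ℂ} (h0 : w₀ 0 = 0) {r : ℝ} (hr : 0 < r) :
    ∫⁻ w in ball w₀ r, (‖w 0‖ₑ ^ 2)⁻¹ = ∞ := by
  have h1 := (volume_preserving_piFinSuccAbove (fun _ : Fin (m + 1) => ℂ) 0)
  have h2 : ∫⁻ w in ball w₀ r, (‖w 0‖ₑ ^ 2)⁻¹ =
      ∫⁻ q in ball (0 : ℂ) r ×ˢ ball (fun i => w₀ (Fin.succAbove 0 i)) r, (‖q.1‖ₑ ^ 2)⁻¹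
        ∂((volume : Measure ℂ).prod volume) := by
    rw [← Measure.volume_eq_prod, ← h1.setLIntegral_comp_preimage_emb
      (MeasurableEquiv.measurableEmbedding _)]
    have h3 : (MeasurableEquiv.piFinSuccAbove (fun _ : Fin (m + 1) => ℂ) 0) ⁻¹'
        (ball (0 : ℂ) r ×ˢ ball (fun i => w₀ (Fin.succAbove 0 i)) r) = ball w₀ r := by
      ext w
      simp only [mem_preimage, mem_prod, mem_ball, dist_pi_lt_iff hr]
      show (dist (w 0) 0 < r ∧ ∀ i, dist (w (Fin.succAbove 0 i)) (w₀ (Fin.succAbove 0 i)) < r) ↔ _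
      rw [Fin.forall_fin_succ (P := fun i => dist (w i) (w₀ i) < r), h0]
      simp
    rw [h3]
    rfl
  rw [h2, ← Measure.prod_restrict, lintegral_prod _ (by fun_prop)]
  simp only [lintegral_const]
  rw [lintegral_mul_const'', lint_top hr, ENNReal.top_mul]
  · rw [Measure.restrict_apply_univ]
    exact (measure_ball_pos volume (fun i => w₀ (Fin.succAbove 0 i)) hr).ne'
  · fun_prop

end Div

end Vale.Agent.P281.H364.TM
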