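import Vale.Agent.P281.H64.Gen.Lift
import Vale.Agent.P281.H308.TW.Hol
import Vale.Agent.P281.H413.TZ.Gen
import Vale.Agent.P281.H342.TZ.Slice
import Vale.Agent.P281.H431.Lin

/-! P281, project T-M, block M4 (helper364): relative forms without poles extend over `S` (adapted
from `H64/Gen/Lift.lean`): `Θ ∧ (g^* dz)^w` is holomorphic on the whole of `X`. -/

open scoped Manifold ContDiff Topology
open Set Filter Metric Vale.Agent.P281
open Vale.Agent.P281.MF Vale.Agent.P281.ISO Vale.Agent.P281.ELL Vale.Agent.P281.H713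
open Vale.Agent.P281.H713.TZ Vale.Agent.P281.H64.Gen
open Vale.Agent.P281.H64 (Cm)

set_option linter.all false

noncomputable section

namespace Vale.Agent.P281.H364.TM

variable {n p : ℕ} {X Z : Type} [TopologicalSpace X] [ChartedSpace (Cm n) X]
  [IsManifold 𝓘(ℂ, Cm n) ω X] [TopologicalSpace Z] [ChartedSpace (Cm p) Z]
  [IsManifold 𝓘(ℂ, Cm p) ω Z]
variable {E₀ : Type} [NormedAddCommGroup E₀] [NormedSpace ℂ E₀] [FiniteDimensional ℂ E₀]

/-- the coefficient of `Θ ∧ (g^* dz)^w` in the charts -/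
def Tc (g : X → Z) (w : ℕ) (Θ : X → ℂ) (x₀ : X) (z₀ : Z) (v : X) : ℂ :=
  jac (Cm p) (chartAt (Cm p) z₀) (g v) ^ w * Θ v / jac (Cm n) (chartAt (Cm n) x₀) v ^ w

/-- **relative forms extend over `S`** -/
theorem ext_T' [T2Space X] (hgen : GenPart) (hsl : SlicePart) (hlin : LinPart) {g : X → Z}
    (hg : ∀ x, HolM (Cm n) (Cm p) g x) {S : Set Z} (hS : IsClosed S)
    (hsub : ∀ x, g x ∉ S → Function.Surjective (dM (Cm n) (Cm p) g x))
    (e₀ : Cm n ≃L[ℂ] (Cm p × E₀)) (hcov : Cov n (g ⁻¹' S)) {w : ℕ} (hw : 0 < w) {Θ : X → ℂ}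
    (hΘ : RelForm g S e₀ w ∅ (fun _ => 0) Θ) {x x₀ : X} {z₀ : Z}
    (hx : x ∈ (chartAt (Cm n) x₀).source) (hz : g x ∈ (chartAt (Cm p) z₀).source) :
    ∃ H : X → ℂ, HolV (Cm n) H x ∧
      ∀ᶠ v in 𝓝 x, g v ∉ S → Tc (n := n) (p := p) g w Θ x₀ z₀ v = H v := by
  classical
  have hfc : ∀ x, ContinuousAt g x := fun x => (hg x).continuousAt
  have hfcont : Continuous g := continuous_iff_continuousAt.2 hfc
  set Ω₁ : Set X := {z | g z ∉ S} with hΩ₁
  have hΩ₁o : IsOpen Ω₁ := hS.isOpen_compl.preimage hfcont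
  have hΩ₁d : Dense Ω₁ := hcov.dense_compl
  haveI : LocallyCompactSpace X := ChartedSpace.locallyCompactSpace (Cm n) X
  set φ := chartAt (Cm n) x₀ with hφ
  set ψ := chartAt (Cm p) z₀ with hψ
  set h₀ : X → ℂ := Tc (n := n) (p := p) g w Θ x₀ z₀ with hh₀
  set a : (Fin w → Fin p → Fin n) → X → ℂ := fun I v => ∏ r, (jac (Cm p) ψ (g v) *
    mnr (dA (n := n) (p := p) g x₀ v) (I r)) with ha
  set W : X → Prop := fun z => z ∈ φ.source ∧ g z ∈ ψ.source with hW
  have hWo : IsOpen {z | W z} :=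
    φ.open_source.inter (ψ.open_source.preimage hfcont)
  have hWn : ∀ z, W z → ∀ᶠ z' in 𝓝 z, W z' := fun z hz => hWo.mem_nhds hz
  have haH : ∀ z, W z → ∀ I, HolV (Cm n) (a I) z := fun z hz I =>
    HolV.prod fun r _ => H308.TW.hol_mnr hg hz.1 hz.2 (I r)
  have haE : ∀ z, ∀ I, jac (Cm p) ψ (g z) ^ w *
      TL.minors (n := n) (p := p) w (id : X → X) g x₀ z I * 1 = a I z := by
    intro z I
    rw [minors_eq, mul_one, ha]
    simp only
    rw [Finset.prod_mul_distrib, Finset.prod_const, Finset.card_univ, Fintype.card_fin]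
  have hhol : ∀ z, W z → g z ∉ S →
      ∃ H₁ : X → ℂ, HolV (Cm n) H₁ z ∧ ∀ᶠ z' in 𝓝 z, h₀ z' = H₁ z' := by
    intro z hz hzS
    obtain ⟨H, hH, hHe⟩ := hΘ.hol x₀ z z₀ hzS hz.1 hz.2 ∅ (fun _ _ => 0)
      (fun D hD => absurd rfl hD) (fun D hD => absurd hD (Finset.notMem_empty D))
    refine ⟨H, hH, ?_⟩
    filter_upwards [hHe, hWn z hz] with z' h4 h5
    have h8 := h4 (fun D hD => absurd hD (notMem_empty D)) (by simp)
    rw [Finset.prod_empty, mul_one] at h8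
    have hj : jac (Cm n) φ z' ^ w ≠ 0 := pow_ne_zero _ (jac_chart_ne_zero h5.1)
    rw [hh₀, Tc, div_eq_iff hj]
    exact h8
  have hhol' : ∀ z, W z → g z ∉ S → HolV (Cm n) h₀ z := by
    intro z hz hzS
    obtain ⟨H₁, hH₁, hH₁e⟩ := hhol z hz hzS
    exact hH₁.congr hH₁e
  -- the points to which `h₀` extends
  set good : X → Prop := fun z => ∃ Q : X → ℂ, HolV (Cm n) Q z ∧
    ∀ᶠ w in 𝓝 z, g w ∉ S → h₀ w = Q w with hgood
  have hfrW : ∀ z, ∃ᶠ w in 𝓝 z, g w ∉ S := fun z => mem_closure_iff_frequently.1 (hΩ₁d z)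
  have hgoodS : ∀ z, W z → g z ∉ S → good z := by
    intro z hz hzS
    obtain ⟨H₁, hH₁, hH₁e⟩ := hhol z hz hzS
    exact ⟨H₁, hH₁, hH₁e.mono fun w hw _ => hw⟩
  have hgo : ∀ z, good z → ∀ᶠ w in 𝓝 z, good w := by
    rintro z ⟨Q, hQ, hQe⟩
    filter_upwards [HolV.eventually (E := Cm n) hQ, hQe.eventually_nhds] with w h1 h2
    exact ⟨Q, h1, h2⟩
  set h₁ : X → ℂ := fun z => if h : good z then h.choose z else 0 with hh₁
  have hh₁e : ∀ z, good z → HolV (Cm n) h₁ z ∧ ∀ᶠ w in 𝓝 z, g w ∉ S → h₀ w = h₁ w := by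
    intro z hz
    obtain ⟨Q, hQ, hQe⟩ := id hz
    have key : ∀ᶠ w in 𝓝 z, h₁ w = Q w := by
      filter_upwards [hgo z hz, HolV.eventually (E := Cm n) hQ, hQe.eventually_nhds]
        with w h1 h3 h4
      have h5 : h₁ w = h1.choose w := by
        simp only [hh₁]
        rw [dif_pos h1]
      rw [h5]
      obtain ⟨h6, h7⟩ := h1.choose_spec
      by_contra hcon
      have h8 : ContinuousAt (fun y => h1.choose y - Q y) w :=
        h6.continuousAt.sub h3.continuousAt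
      have h9 := h8.eventually_ne (sub_ne_zero.2 hcon)
      obtain ⟨y, hy1, hy3, hy4, hy5⟩ :=
        ((hfrW w).and_eventually (h7.and (h4.and h9))).exists
      exact hy5 (sub_eq_zero.2 ((hy3 hy1).symm.trans (hy4 hy1)))
    refine ⟨hQ.congr key, ?_⟩
    filter_upwards [key, hQe] with w h1 h2 h3
    rw [h1, h2 h3]
  suffices hall : ∀ z, W z → good z from hall x ⟨hx, hz⟩
  by_contra hcon
  push Not at hcon
  obtain ⟨z₁, hz₁W, hz₁g⟩ := hcon
  set F : Set X := {z | W z} ∩ {z | ¬ good z} with hF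
  have hgopen : IsOpen {z | good z} := isOpen_iff_mem_nhds.2 fun z hz => hgo z hz
  have hFl : IsLocallyClosed F := hWo.isLocallyClosed.inter
    (by
      have : IsClosed {z | ¬ good z} := by
        have h := hgopen.isClosed_compl
        exact h
      exact this.isLocallyClosed)
  obtain ⟨H, hH, hHsub⟩ := hcov
  obtain ⟨k, z, ⟨hzW, hzg⟩, hzk⟩ := baire_loc hFl ⟨z₁, hz₁W, hz₁g⟩ (fun k => (hH k).1)
    (fun w hw => by
      refine hHsub ?_
      by_contra hwS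
      exact hw.2 (hgoodS w hw.1 hwS))
  obtain ⟨Den, hDen, hDne, hDev⟩ := (hH k).2 z
  have hDen : HolV (Cm n) Den z := hDen
  apply hzg
  have hfr : ∀ᶠ y in 𝓝 z, ∃ᶠ z in 𝓝 y, Den z ≠ 0 :=
    ne_frequently hDen hDne
  -- off `Den`, the points are good
  have hgD : ∀ᶠ y in 𝓝 z, Den y ≠ 0 → good y := by
    filter_upwards [hzk, hWn z hzW, hDev] with y h1 h2 h3 h4
    by_contra h5
    exact h4 (h3 (h1 ⟨h2, h5⟩))
  obtain ⟨Q, hQ, hQe⟩ := extendM_off (h := h₁) (Den := Den) hDen hDne (by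
    filter_upwards [hgD] with y h1 h3
    exact (hh₁e y (h1 h3)).1) (by
    filter_upwards [hgD.eventually_nhds, hWn z hzW, hfr, hDen.eventually] with
      x hx hxW hxf hxh hx0
    rw [mem_closure_iff_nhds]
    intro U hU
    -- shrink `U`
    obtain ⟨U', hU', hU'o, hxU'⟩ := _root_.eventually_nhds_iff.1
      ((hx.eventually_nhds.and (hWn x hxW).eventually_nhds).and
        (eventually_eventually_nhds.2 (show ∀ᶠ w in 𝓝 x, w ∈ U from hU)))
    obtain ⟨y, hyU', hy0, e, he, he0, hene, hee, hord⟩ := genM hgen (z := x) (Den := Den) hxh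
      (fun hcon => hxf (by simpa using hcon)) hx0 (b := fun J : Fin p → Fin n =>
        a (fun _ => J)) (fun J => haH x hxW _) (hU'o.mem_nhds hxU')
    obtain ⟨⟨hyD, hyW⟩, hyU⟩ := hU' y hyU'
    by_cases hcase : ∀ᶠ w in 𝓝 y, Den w = 0 → ¬ good w
    swap
    · -- a good point
      have h1 : ∃ᶠ w in 𝓝 y, Den w = 0 ∧ good w := by
        intro hcon
        apply hcase
        filter_upwards [hcon] with w hw hw0 hwg
        exact hw ⟨hw0, hwg⟩
      obtain ⟨w, ⟨hw0, hwg⟩, hwU⟩ := (h1.and_eventually hyU).exists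
      refine ⟨w, hwU, hw0, ‖h₁ w‖ + 1, ?_⟩
      filter_upwards [(HolV.continuousAt (E := Cm n)
        (hh₁e w hwg).1).norm.eventually_lt_const (lt_add_one ‖h₁ w‖)] with v h1 _
      exact h1.le
    refine ⟨y, hyU.self_of_nhds, hy0, ?_⟩
    have hyWy : W y := hyW.self_of_nhds
    have hDS : ∀ᶠ w in 𝓝 y, Den w = 0 → g w ∈ S := by
      filter_upwards [hcase, hyW] with w h1 h2 h3
      by_contra h4
      exact h1 h3 (hgoodS w h2 h4)
    have heS : ∀ᶠ w in 𝓝 y, e w = 0 → g w ∈ S := by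
      filter_upwards [hDS, hee] with w h1 h2 h3
      exact h1 (h2.2 h3)
    obtain ⟨C, hC⟩ := bd_G hsl hlin hg hsub e₀ hw (𝒜 := ∅) (Θ := Θ) hΘ.bound (z₀ := x₀)
      (y := y) hyWy.1 (t := fun y => jac (Cm p) ψ y ^ w) (PX := fun _ => 1) (a := a)
      (haH y hyWy) (Eventually.of_forall fun w _ I => haE w I) he heS
      (Eventually.of_forall fun w => mem_closure_iff_frequently.1 (hΩ₁d w)) hord
      (Eventually.of_forall fun w _ D hD => absurd hD (notMem_empty D))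
    have hbd : ∀ᶠ w in 𝓝 y, g w ∉ S → ‖h₀ w‖ ≤ |C| := by
      filter_upwards [hC, hyW] with v h1 h3 hwS
      have hj : jac (Cm n) φ v ^ w ≠ 0 := pow_ne_zero _ (jac_chart_ne_zero h3.1)
      have h6 := h1 hwS
      rw [mul_one] at h6
      rw [hh₀, Tc, norm_div, div_le_iff₀ (norm_pos_iff.2 hj)]
      exact h6.trans (mul_le_mul_of_nonneg_right (le_abs_self C) (norm_nonneg _))
    refine ⟨|C|, ?_⟩
    filter_upwards [hyD, hbd.eventually_nhds] with w h1 h3 h5
    obtain ⟨h6, h7⟩ := hh₁e w (h1 h5)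
    by_contra hcon
    push Not at hcon
    have h8 := (HolV.continuousAt (E := Cm n) h6).norm.eventually_const_lt hcon
    obtain ⟨v, hv1, hv2, hv4, hv5⟩ :=
      ((mem_closure_iff_frequently.1 (hΩ₁d w)).and_eventually
        (h3.and (h7.and h8))).exists
    have hv6 : h₀ v = h₁ v := hv4 hv1
    rw [← hv6] at hv5
    exact absurd (hv2 hv1) (not_le.2 hv5))
  refine ⟨Q, hQ, ?_⟩
  filter_upwards [hQe.eventually_nhds, hWn z hzW, hfr, hQ.eventually] with x h1 h2 h3 h5 hxS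
  by_contra hcon
  have h7 : ContinuousAt (fun y => h₀ y - Q y) x :=
    (hhol' x h2 hxS).continuousAt.sub h5.continuousAt
  have h8 := h7.eventually_ne (sub_ne_zero.2 hcon)
  have h9 := (hh₁e x (hgoodS x h2 hxS)).2
  obtain ⟨y, hy, hy1, hy2, hy3, hy4⟩ := (h3.and_eventually (h1.and (h8.and (h9.and
    (show ∀ᶠ w in 𝓝 x, w ∈ Ω₁ from hΩ₁o.mem_nhds hxS))))).exists
  exact hy2 (sub_eq_zero.2 ((hy3 hy4).trans (hy1 hy)))

end Vale.Agent.P281.H364.TM
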