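import Vale.Agent.P281.H308.TW.Mult
import Vale.Agent.P281.H364.TM.Ext

/-! P281, project T-M, block M4 (helper364): orders along prime divisors of local functions which
are determined up to units; orders of relative forms. -/

open scoped Manifold ContDiff Topology
open Set Filter Metric Vale.Agent.P281
open Vale.Agent.P281.H713 Vale.Agent.P281.H511.Gen
open Vale.Agent.P281.H64 (Cm)

set_option linter.all false

noncomputable section

namespace Vale.Agent.P281.H364.TM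

section

variable {n : ℕ} {X : Type} [TopologicalSpace X] [ChartedSpace (Cm n) X]
  [IsManifold 𝓘(ℂ, Cm n) ω X]

/-- local holomorphic functions determined up to units -/
structure LocFam (n : ℕ) {X : Type} [TopologicalSpace X] [ChartedSpace (Cm n) X]
    [IsManifold 𝓘(ℂ, Cm n) ω X] (𝓗 : X → (X → ℂ) → Prop) : Prop where
  hol : ∀ x H, 𝓗 x H → HolV (Cm n) H x
  near : ∀ x H, 𝓗 x H → ∀ᶠ x' in 𝓝 x, 𝓗 x' H
  unit : ∀ x H H', 𝓗 x H → 𝓗 x H' → ∃ c : X → ℂ, HolV (Cm n) c x ∧ c x ≠ 0 ∧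
    ∀ᶠ z in 𝓝 x, H' z = c z * H z
  ex : ∀ x, ∃ H, 𝓗 x H

/-- the order along `E` is `k` near the smooth point `x` of `E` -/
def OrdL (n : ℕ) {X : Type} [TopologicalSpace X] [ChartedSpace (Cm n) X]
    [IsManifold 𝓘(ℂ, Cm n) ω X] (𝓗 : X → (X → ℂ) → Prop) (E : Set X) (x : X) (k : ℕ) : Prop :=
  ∃ (e H u : X → ℂ), J.IsLocalEq (Cm n) E e x ∧ J.dif (Cm n) e x ≠ 0 ∧ 𝓗 x H ∧
    HolV (Cm n) u x ∧ (∀ᶠ z in 𝓝 x, H z = e z ^ k * u z) ∧ ¬ ∀ᶠ z in 𝓝 x, e z = 0 → u z = 0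

variable {𝓗 : X → (X → ℂ) → Prop} {E : Set X} {x x' : X} {k k' : ℕ}

theorem OrdL.unique (h𝓗 : LocFam n 𝓗) (hx : x ∈ E) (h : OrdL n 𝓗 E x k)
    (h' : OrdL n 𝓗 E x k') : k = k' := by
  suffices H : ∀ k k', OrdL n 𝓗 E x k → OrdL n 𝓗 E x k' → ¬ k < k' from
    le_antisymm (not_lt.1 (H k' k h' h)) (not_lt.1 (H k k' h h'))
  clear h h'
  rintro k k' ⟨e, d, w, he, hde, hd, hw, hev, hne⟩ ⟨e', d', w', he', -, hd', hw', hev', -⟩ hlt
  apply hne
  have hex : e x = 0 := (isLocalEq_mem_iff he).self_of_nhds.1 hx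
  obtain ⟨u, hu, -, hue⟩ := exists_unit (isLocalEq_holAt he) hex hde (isLocalEq_mem_iff he) he'
  obtain ⟨c, hc, hc0, hce⟩ := h𝓗.unit x d d' hd hd'
  have h1 : HolV (Cm n) (fun z => c z * w z) x := HolV.mul hc hw
  have h2 : HolV (Cm n) (fun z => e z ^ (k' - k) * (u z ^ k' * w' z)) x :=
    HolV.mul (HolV.pow (show HolV (Cm n) e x from isLocalEq_holAt he) _)
      (HolV.mul (HolV.pow (show HolV (Cm n) u x from hu) _) hw')
  have hall : ∀ᶠ z in 𝓝 x, e z ≠ 0 → c z * w z = e z ^ (k' - k) * (u z ^ k' * w' z) := by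
    filter_upwards [hev, hev', hue, hce] with z a1 a2 a3 a4 hz
    have h3 : e z ^ k' = e z ^ (k' - k) * e z ^ k := by
      rw [← pow_add, Nat.sub_add_cancel hlt.le]
    have h4 : e z ^ k * (c z * w z) = e z ^ k * (e z ^ (k' - k) * (u z ^ k' * w' z)) := by
      calc e z ^ k * (c z * w z) = c z * d z := by rw [a1]; ring
        _ = d' z := a4.symm
        _ = (e z * u z) ^ k' * w' z := by rw [a2, a3]
        _ = e z ^ k' * (u z ^ k' * w' z) := by rw [mul_pow]; ring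
        _ = _ := by rw [h3]; ring
    exact mul_left_cancel₀ (pow_ne_zero _ hz) h4
  filter_upwards [hall.eventually_nhds, h1.eventually, h2.eventually, isLocalEq_eventually he,
    hc.continuousAt.eventually_ne hc0] with z a1 a2 a3 a4 a5 hz
  have h3 : ∃ᶠ t in 𝓝 z, e t ≠ 0 := by
    rw [Filter.Frequently]
    intro hcon
    refine isLocalEq_not_zero a4 ?_
    filter_upwards [hcon] with t ht
    exact not_not.1 ht
  have h4 := H308.TW.eq_of_freq' a2.continuousAt a3.continuousAt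
    ((h3.and_eventually a1).mono fun t ht => ht.2 ht.1)
  rw [hz, zero_pow (by omega), zero_mul] at h4
  exact (mul_eq_zero.1 h4).resolve_left a5

theorem OrdL.near (h𝓗 : LocFam n 𝓗) (hx : x ∈ E) (h : OrdL n 𝓗 E x k) :
    ∀ᶠ x' in 𝓝 x, x' ∈ E → OrdL n 𝓗 E x' k := by
  obtain ⟨e, d, w, he, hde, hd, hw, hev, hne⟩ := h
  have hex : e x = 0 := (isLocalEq_mem_iff he).self_of_nhds.1 hx
  obtain ⟨V, hVN, hVo, hxV, hV⟩ := exists_cell (isLocalEq_holAt he) hex hde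
    (N := {z | J.HolAt (Cm n) w z}) (holAt_eventually hw)
  filter_upwards [hVo.mem_nhds hxV, isLocalEq_eventually he,
    eventually_dif_ne (isLocalEq_holAt he) hde, h𝓗.near x d hd,
    hw.eventually, hev.eventually_nhds, isLocalEq_mem_iff he] with x' h1 h2 h3 h4 h5 h6 h7 hx'E
  refine ⟨e, d, w, h2, h3, h4, h5, h6, fun hcon => hne ?_⟩
  have h8 := hV w (fun y hy => hVN hy) ⟨x', h1, h7.1 hx'E, hcon⟩
  filter_upwards [hVo.mem_nhds hxV] with z hz hez
  exact h8 z hz hez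

theorem OrdL.exists (h𝓗 : LocFam n 𝓗) (hx : x ∈ sm n E) {H : X → ℂ} (hH : 𝓗 x H)
    (hne : ¬ ∀ᶠ z in 𝓝 x, H z = 0) : ∃ k, OrdL n 𝓗 E x k := by
  obtain ⟨hxE, e, he, hde⟩ := hx
  have hex : e x = 0 := (isLocalEq_mem_iff he).self_of_nhds.1 hxE
  obtain ⟨k, w, hw, hev, hw0⟩ := exists_pow_mul (isLocalEq_holAt he) hex hde
    (h𝓗.hol x H hH) hne
  exact ⟨k, e, H, w, he, hde, hH, hw, hev, hw0⟩

/-- nonzero order at one smooth point: everywhere -/
theorem OrdL.all (h𝓗 : LocFam n 𝓗) (hE : J.IsPrime (Cm n) E) (hx : x ∈ sm n E)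
    (h : OrdL n 𝓗 E x k) : ∀ x' ∈ sm n E, OrdL n 𝓗 E x' k := by
  classical
  -- existence
  have hex : ∀ x' ∈ sm n E, ∃ k, OrdL n 𝓗 E x' k := by
    set κ : X → Bool := fun x => decide (∃ k, OrdL n 𝓗 E x k) with hκ
    have hc : ContinuousOn κ (sm n E) := by
      intro x₁ hx₁
      by_cases hk : ∃ k, OrdL n 𝓗 E x₁ k
      · obtain ⟨k, hk⟩ := id hk
        refine (continuousWithinAt_const (b := true)).congr_of_eventuallyEq ?_
          (decide_eq_true ⟨k, hk⟩)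
        rw [Filter.EventuallyEq, eventually_nhdsWithin_iff]
        filter_upwards [hk.near h𝓗 hx₁.1] with x' h1 hx'
        exact decide_eq_true ⟨k, h1 hx'.1⟩
      · refine (continuousWithinAt_const (b := false)).congr_of_eventuallyEq ?_
          (decide_eq_false hk)
        obtain ⟨H, hH⟩ := h𝓗.ex x₁
        have h0 : ∀ᶠ z in 𝓝 x₁, H z = 0 := by
          by_contra hcon
          exact hk (OrdL.exists h𝓗 hx₁ hH hcon)
        rw [Filter.EventuallyEq, eventually_nhdsWithin_iff]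
        filter_upwards [h0.eventually_nhds, h𝓗.near x₁ H hH] with x' h1 h2 hx'
        refine decide_eq_false ?_
        rintro ⟨k, e, H', u, he, hde, hH', hu, hev, hne⟩
        apply hne
        obtain ⟨c, hc, hc0, hce⟩ := h𝓗.unit x' H H' h2 hH'
        have h3 : ∀ᶠ z in 𝓝 x', e z ^ k * u z = 0 := by
          filter_upwards [hev, hce, h1] with z a1 a2 a3
          rw [← a1, a2, a3, mul_zero]
        filter_upwards [h3.eventually_nhds, hu.eventually, isLocalEq_eventually he] with z a1 a2 a3 _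
        have h4 : ∃ᶠ t in 𝓝 z, e t ≠ 0 := by
          rw [Filter.Frequently]
          intro hcon
          refine isLocalEq_not_zero a3 ?_
          filter_upwards [hcon] with t ht
          exact not_not.1 ht
        exact H308.TW.eq_of_freq' a2.continuousAt continuousAt_const
          ((h4.and_eventually a1).mono fun t ht =>
            (mul_eq_zero.1 ht.2).resolve_left (pow_ne_zero _ ht.1))
    intro x' hx'
    have h1 := IsPreconnected.constant (s := sm n E) hE.2.2.isPreconnected hc hx hx'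
    have h2 : κ x = true := decide_eq_true ⟨k, h⟩
    rw [h1] at h2
    exact of_decide_eq_true h2
  set κ : X → ℕ := fun x => if h : ∃ k, OrdL n 𝓗 E x k then h.choose else 0 with hκd
  have hκ : ∀ x ∈ sm n E, ∀ k, OrdL n 𝓗 E x k → κ x = k := by
    intro x hx k hk
    have h : ∃ k, OrdL n 𝓗 E x k := ⟨k, hk⟩
    simp only [hκd, dif_pos h]
    exact OrdL.unique h𝓗 hx.1 h.choose_spec hk
  have hc : ContinuousOn κ (sm n E) := by
    intro x hx
    obtain ⟨k, hk⟩ := hex x hx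
    refine (continuousWithinAt_const (b := k)).congr_of_eventuallyEq ?_ (hκ x hx k hk)
    rw [Filter.EventuallyEq, eventually_nhdsWithin_iff]
    filter_upwards [hk.near h𝓗 hx.1] with x' h1 hx'
    exact hκ x' hx' k (h1 hx'.1)
  intro x' hx'
  obtain ⟨k', hk'⟩ := hex x' hx'
  have h1 := IsPreconnected.constant (s := sm n E) hE.2.2.isPreconnected hc hx hx'
  rw [hκ x hx k h, hκ x' hx' k' hk'] at h1
  rw [h1]
  exact hk'

end

section

variable {n p : ℕ} {X Z : Type} [TopologicalSpace X] [ChartedSpace (Cm n) X]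
  [IsManifold 𝓘(ℂ, Cm n) ω X] [TopologicalSpace Z] [ChartedSpace (Cm p) Z]
  [IsManifold 𝓘(ℂ, Cm p) ω Z]

theorem jac_ratio {x₀ x₁ x : X} (h0 : x ∈ (chartAt (Cm n) x₀).source)
    (h1 : x ∈ (chartAt (Cm n) x₁).source) :
    ∃ c : X → ℂ, HolV (Cm n) c x ∧ c x ≠ 0 ∧ ∀ᶠ v in 𝓝 x,
      jac (Cm n) (chartAt (Cm n) x₀) v = c v * jac (Cm n) (chartAt (Cm n) x₁) v := by
  have h2 := H713.SA.holV_fderiv (E := Cm n) (x₀ := x₁) h1
    (HolV.chart h0 : HolV (Cm n) (chartAt (Cm n) x₀ : X → Cm n) x)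
  have h3 : ∀ v, v ∈ (chartAt (Cm n) x₀).source → v ∈ (chartAt (Cm n) x₁).source →
      jac (Cm n) (chartAt (Cm n) x₀) v =
        (fderiv ℂ ((chartAt (Cm n) x₀ : X → Cm n) ∘ (chartAt (Cm n) x₁).symm)
          (chartAt (Cm n) x₁ v)).det * jac (Cm n) (chartAt (Cm n) x₁) v :=
    fun v a b => MF.jac_chart_comp a b
  refine ⟨fun v => (fderiv ℂ ((chartAt (Cm n) x₀ : X → Cm n) ∘ (chartAt (Cm n) x₁).symm)
    (chartAt (Cm n) x₁ v)).det, HolV.comp_contDiff contDiff_det.contDiffAt h2, ?_, ?_⟩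
  · intro h4
    have h5 := h3 x h0 h1
    simp only [h4, zero_mul] at h5
    exact jac_chart_ne_zero h0 h5
  · filter_upwards [(chartAt (Cm n) x₀).open_source.mem_nhds h0,
      (chartAt (Cm n) x₁).open_source.mem_nhds h1] with v a b
    exact h3 v a b

theorem Tc_change {g : X → Z} (hg : ∀ x, HolM (Cm n) (Cm p) g x) (w : ℕ) (Θ : X → ℂ)
    {x₀ x₁ x : X} {z₀ z₁ : Z} (h0 : x ∈ (chartAt (Cm n) x₀).source)
    (h1 : x ∈ (chartAt (Cm n) x₁).source) (k0 : g x ∈ (chartAt (Cm p) z₀).source)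
    (k1 : g x ∈ (chartAt (Cm p) z₁).source) :
    ∃ c : X → ℂ, HolV (Cm n) c x ∧ c x ≠ 0 ∧ ∀ᶠ v in 𝓝 x,
      Tc (n := n) (p := p) g w Θ x₀ z₀ v = c v * Tc (n := n) (p := p) g w Θ x₁ z₁ v := by
  obtain ⟨a, ha, ha0, hae⟩ := jac_ratio (n := n) h1 h0
  obtain ⟨b, hb, hb0, hbe⟩ := jac_ratio (n := p) k0 k1
  have hbg : HolV (Cm n) (fun v => b (g v)) x := HolV.comp (E' := Cm p) hb (hg x)
  refine ⟨fun v => b (g v) ^ w * a v ^ w, (hbg.pow w).mul (ha.pow w),
    mul_ne_zero (pow_ne_zero _ hb0) (pow_ne_zero _ ha0), ?_⟩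
  filter_upwards [hae, (hg x).continuousAt.eventually hbe,
    (chartAt (Cm n) x₀).open_source.mem_nhds h0, (chartAt (Cm n) x₁).open_source.mem_nhds h1]
    with v e1 e2 e3 e4
  have hj0 : jac (Cm n) (chartAt (Cm n) x₀) v ≠ 0 := jac_chart_ne_zero e3
  have hj1 : jac (Cm n) (chartAt (Cm n) x₁) v ≠ 0 := jac_chart_ne_zero e4
  have ha' : a v ≠ 0 := by
    intro h; rw [h, zero_mul] at e1; exact hj1 e1
  simp only [Tc]
  rw [e1, e2, mul_pow, mul_pow]
  field_simp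

/-- `H` is the coefficient of `Θ ∧ (g^* dz)^w` near `x`, extended over `S` -/
def IsCf (n p : ℕ) {X Z : Type} [TopologicalSpace X] [ChartedSpace (Cm n) X]
    [TopologicalSpace Z] [ChartedSpace (Cm p) Z] (g : X → Z) (S : Set Z) (w : ℕ) (Θ : X → ℂ)
    (x : X) (H : X → ℂ) : Prop :=
  ∃ (x₀ : X) (z₀ : Z), x ∈ (chartAt (Cm n) x₀).source ∧ g x ∈ (chartAt (Cm p) z₀).source ∧
    HolV (Cm n) H x ∧ ∀ᶠ v in 𝓝 x, g v ∉ S → Tc (n := n) (p := p) g w Θ x₀ z₀ v = H v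

variable {E₀ : Type} [NormedAddCommGroup E₀] [NormedSpace ℂ E₀] [FiniteDimensional ℂ E₀]

/-- **relative forms extend over `S`** -/
theorem ext_T [T2Space X] {g : X → Z}
    (hg : ∀ x, HolM (Cm n) (Cm p) g x) {S : Set Z} (hS : IsClosed S)
    (hsub : ∀ x, g x ∉ S → Function.Surjective (dM (Cm n) (Cm p) g x))
    (e₀ : Cm n ≃L[ℂ] (Cm p × E₀)) (hcov : H64.Gen.Cov n (g ⁻¹' S)) {w : ℕ} (hw : 0 < w)
    {Θ : X → ℂ} (hΘ : RelForm g S e₀ w ∅ (fun _ => 0) Θ) {x x₀ : X} {z₀ : Z}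
    (hx : x ∈ (chartAt (Cm n) x₀).source) (hz : g x ∈ (chartAt (Cm p) z₀).source) :
    ∃ H : X → ℂ, HolV (Cm n) H x ∧
      ∀ᶠ v in 𝓝 x, g v ∉ S → Tc (n := n) (p := p) g w Θ x₀ z₀ v = H v :=
  ext_T' H413.TZ.genPart H342.TZ.slicePart H431.linPart hg hS hsub e₀ hcov hw hΘ hx hz

/-- the extended coefficients are determined up to units -/
theorem locFam [T2Space X] {g : X → Z}
    (hg : ∀ x, HolM (Cm n) (Cm p) g x) {S : Set Z} (hS : IsClosed S)
    (hsub : ∀ x, g x ∉ S → Function.Surjective (dM (Cm n) (Cm p) g x))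
    (e₀ : Cm n ≃L[ℂ] (Cm p × E₀)) (hcov : H64.Gen.Cov n (g ⁻¹' S)) {w : ℕ} (hw : 0 < w)
    {Θ : X → ℂ} (hΘ : RelForm g S e₀ w ∅ (fun _ => 0) Θ) :
    LocFam n (IsCf n p g S w Θ) where
  hol := fun x H h => by
    obtain ⟨x₀, z₀, -, -, h, -⟩ := h
    exact h
  near := fun x H h => by
    obtain ⟨x₀, z₀, h1, h2, h3, h4⟩ := h
    filter_upwards [(chartAt (Cm n) x₀).open_source.mem_nhds h1,
      (hg x).continuousAt.eventually ((chartAt (Cm p) z₀).open_source.mem_nhds h2),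
      h3.eventually, h4.eventually_nhds] with x' a1 a2 a3 a4
    exact ⟨x₀, z₀, a1, a2, a3, a4⟩
  unit := fun x H H' h h' => by
    obtain ⟨x₀, z₀, h1, h2, h3, h4⟩ := h
    obtain ⟨x₁, z₁, k1, k2, k3, k4⟩ := h'
    obtain ⟨c, hc, hc0, hce⟩ := Tc_change hg w Θ k1 h1 k2 h2
    refine ⟨c, hc, hc0, ?_⟩
    have hd : Dense (g ⁻¹' S)ᶜ := hcov.dense_compl
    filter_upwards [k4.eventually_nhds, h4.eventually_nhds, hce.eventually_nhds, hc.eventually,
      h3.eventually, k3.eventually] with z a1 a2 a3 a4 a5 a6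
    refine H308.TW.eq_of_freq' a6.continuousAt (a4.mul a5).continuousAt ?_
    refine ((mem_closure_iff_frequently.1 (hd z)).and_eventually
      (a1.and (a2.and a3))).mono ?_
    rintro t ⟨b1, b2, b3, b4⟩
    rw [← b2 b1, b4, b3 b1]
  ex := fun x => by
    obtain ⟨H, h1, h2⟩ := ext_T hg hS hsub e₀ hcov hw hΘ (mem_chart_source (Cm n) x)
      (mem_chart_source (Cm p) (g x))
    exact ⟨H, x, g x, mem_chart_source _ _, mem_chart_source _ _, h1, h2⟩

/-- the order of `Θ ∧ (g^* dz)^w` along `E` near `x` is `k` -/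
def OrdF (n p : ℕ) {X Z : Type} [TopologicalSpace X] [ChartedSpace (Cm n) X]
    [IsManifold 𝓘(ℂ, Cm n) ω X] [TopologicalSpace Z] [ChartedSpace (Cm p) Z] (g : X → Z)
    (S : Set Z) (w : ℕ) (Θ : X → ℂ) (E : Set X) (x : X) (k : ℕ) : Prop :=
  OrdL n (IsCf n p g S w Θ) E x k

end

end Vale.Agent.P281.H364.TM
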