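import Vale.Agent.P281.H308.TW.Sub
import Vale.Agent.P281.H364.TM.Ord
import Vale.Agent.P281.H76.Ord

/-! P281, project T-M, block T3 (helper364): submersivity of `E → D` in terms of determinants;
division by the local equation of a prime divisor at its singular points. -/

open scoped Manifold ContDiff Topology
open Set Filter Metric Vale.Agent.P281
open Vale.Agent.P281.H713 Vale.Agent.P281.H511.Gen Vale.Agent.P281.H308.TW
open Vale.Agent.P281.H64 (Cm)

set_option linter.all false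

noncomputable section

namespace Vale.Agent.P281.H364.TM

section
variable {n p : ℕ} {X Z : Type} [TopologicalSpace X] [ChartedSpace (Cm n) X]
  [IsManifold 𝓘(ℂ, Cm n) ω X] [TopologicalSpace Z] [ChartedSpace (Cm p) Z]
  [IsManifold 𝓘(ℂ, Cm p) ω Z] {g : X → Z} {x x₀ : X} {z₀ : Z}

/-- the differential of `g` in the charts, its coordinate `σ` replaced by `de` -/
def Ms (n p : ℕ) {X Z : Type} [TopologicalSpace X] [ChartedSpace (Cm n) X]
    [TopologicalSpace Z] [ChartedSpace (Cm p) Z] (g : X → Z) (e : X → ℂ) (x₀ : X) (z₀ : Z)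
    (σ : Fin p) (x : X) : Cm n →L[ℂ] Cm p :=
  ContinuousLinearMap.pi fun i =>
    if i = σ then fderiv ℂ (e ∘ (chartAt (Cm n) x₀).symm) (chartAt (Cm n) x₀ x) else
      (ContinuousLinearMap.proj i).comp (fderiv ℂ
        ((fun x' => chartAt (Cm p) z₀ (g x')) ∘ (chartAt (Cm n) x₀).symm) (chartAt (Cm n) x₀ x))

/-- **submersivity of `E → D`, as surjectivity of one map** -/
theorem sub_iff (hg : ∀ x, HolM (Cm n) (Cm p) g x) (hx : x ∈ (chartAt (Cm n) x₀).source)
    (hgx : g x ∈ (chartAt (Cm p) z₀).source) {e w : X → ℂ} {d : Z → ℂ} {k : ℕ} (hk : 0 < k)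
    (he : HolV (Cm n) e x) (hex : e x = 0) (hde : J.dif (Cm n) e x ≠ 0)
    (hd : HolV (Cm p) d (g x)) {σ : Fin p}
    (hσ : fderiv ℂ (d ∘ (chartAt (Cm p) z₀).symm) (chartAt (Cm p) z₀ (g x))
      (Pi.single σ 1) ≠ 0)
    (hw : HolV (Cm n) w x) (hfac : ∀ᶠ z in 𝓝 x, d (g z) = e z ^ k * w z) :
    (∀ η : Cm p, J.dif (Cm p) d (g x) η = 0 → ∃ ξ : Cm n, J.dif (Cm n) e x ξ = 0 ∧
      mfderiv 𝓘(ℂ, Cm n) 𝓘(ℂ, Cm p) g x ξ = η) ↔
      Function.Surjective (Ms n p g e x₀ z₀ σ x) := by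
  classical
  set ψ := chartAt (Cm p) z₀ with hψ
  set φ := chartAt (Cm n) x₀ with hφ
  set L : Cm p →L[ℂ] ℂ := fderiv ℂ (d ∘ ψ.symm) (ψ (g x)) with hL
  have hdL : dV (Cm p) d (g x) = L.comp (dV (Cm p) (ψ : Z → Cm p) (g x)) := dV_eq_chart hgx hd
  set G : X → Cm p := fun x' => ψ (g x') with hG
  have hGh : HolV (Cm n) G x :=
    HolV.comp (h := (ψ : Z → Cm p)) (HolV.chart hgx) (hg x)
  have hdG : dV (Cm n) G x =
      (dV (Cm p) (ψ : Z → Cm p) (g x)).comp (dM (Cm n) (Cm p) g x) :=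
    dV_comp (h := (ψ : Z → Cm p)) (HolV.chart hgx) (hg x)
  set M : Cm n →L[ℂ] Cm p := Ms n p g e x₀ z₀ σ x with hM
  have hMσ : ∀ ξ, M (dV (Cm n) (φ : X → Cm n) x ξ) σ = J.dif (Cm n) e x ξ := by
    intro ξ
    have h1 : dV (Cm n) e x = (fderiv ℂ (e ∘ φ.symm) (φ x)).comp
      (dV (Cm n) (φ : X → Cm n) x) := dV_eq_chart hx he
    have h2 : J.dif (Cm n) e x ξ = dV (Cm n) e x ξ := rfl
    rw [h2, h1]
    simp [hM, Ms, hφ]
  have hMi : ∀ i, i ≠ σ → ∀ ξ,
      M (dV (Cm n) (φ : X → Cm n) x ξ) i = dV (Cm p) (ψ : Z → Cm p) (g x)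
        (dM (Cm n) (Cm p) g x ξ) i := by
    intro i hi ξ
    have h1 : dV (Cm n) G x = (fderiv ℂ (G ∘ φ.symm) (φ x)).comp
      (dV (Cm n) (φ : X → Cm n) x) := dV_eq_chart hx hGh
    have h2 := hdG
    rw [h1] at h2
    have h3 := congrArg (fun T : Cm n →L[ℂ] Cm p => T ξ i) h2
    simp only [ContinuousLinearMap.comp_apply] at h3
    rw [← h3]
    simp [hM, Ms, hi, hG, hφ, hψ]
  constructor
  · intro hsub c
    obtain ⟨ξ₀, hξ₀⟩ : ∃ ξ₀, J.dif (Cm n) e x ξ₀ = c σ := by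
      obtain ⟨v, hv⟩ : ∃ v, J.dif (Cm n) e x v ≠ 0 := by
        by_contra hcon
        push Not at hcon
        exact hde (ContinuousLinearMap.ext hcon)
      refine ⟨(c σ / J.dif (Cm n) e x v) • v, ?_⟩
      rw [map_smul, smul_eq_mul, div_mul_cancel₀ _ hv]
    -- the vector in the chart
    set b : Cm p := fun i => c i - dV (Cm p) (ψ : Z → Cm p) (g x) (dM (Cm n) (Cm p) g x ξ₀) i
      with hb
    set v : Cm p := b - ((L b) / (L (Pi.single σ 1))) • (Pi.single σ 1 : Cm p) with hv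
    have hLv : L v = 0 := by
      rw [hv, map_sub, map_smul, smul_eq_mul, div_mul_cancel₀ _ hσ, sub_self]
    obtain ⟨η, hη⟩ := surj_of_isUnit (H713.SA.isUnit_dV_chart (E := Cm p) hgx) v
    obtain ⟨ξ₁, hξ₁, hξ₁'⟩ := hsub η (by
      show dV (Cm p) d (g x) η = 0
      rw [hdL, ContinuousLinearMap.comp_apply]
      have h9 : dV (Cm p) (ψ : Z → Cm p) (g x) η = v := hη
      rw [h9, hLv])
    refine ⟨dV (Cm n) (φ : X → Cm n) x (ξ₀ + ξ₁), funext fun i => ?_⟩
    by_cases hi : i = σ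
    · subst hi
      rw [hMσ, map_add, hξ₀, hξ₁, add_zero]
    · rw [hMi i hi]
      have h3 : dM (Cm n) (Cm p) g x (ξ₀ + ξ₁) = dM (Cm n) (Cm p) g x ξ₀ + η := by
        rw [map_add]
        congr 1
      rw [h3, map_add, Pi.add_apply]
      have h9 : dV (Cm p) (ψ : Z → Cm p) (g x) η = v := hη
      rw [h9, hv]
      simp [hb, hi]
  · intro h1 η hη
    -- the differential of `d ∘ g`
    have hdg : ∀ ξ, J.dif (Cm n) e x ξ = 0 →
        J.dif (Cm p) d (g x) (dM (Cm n) (Cm p) g x ξ) = 0 := by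
      intro ξ hξ
      obtain ⟨k', rfl⟩ : ∃ k', k = k' + 1 := ⟨k - 1, by omega⟩
      have a1 : dV (Cm n) (fun z => d (g z)) x =
          (dV (Cm p) d (g x)).comp (dM (Cm n) (Cm p) g x) := dV_comp (h := d) hd (hg x)
      have a2 : dV (Cm n) (fun z => d (g z)) x =
          dV (Cm n) (fun z => e z • (e z ^ k' * w z)) x := by
        have a3 : (fun z => d (g z)) =ᶠ[𝓝 x] fun z => e z • (e z ^ k' * w z) := by
          filter_upwards [hfac] with z hz
          rw [hz, smul_eq_mul]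
          ring
        unfold dV
        rw [a3.mfderiv_eq]
      have a4 : HolV (Cm n) (fun z => e z ^ k' * w z) x := HolV.mul (HolV.pow he _) hw
      rw [dV_smul he a4, hex, zero_smul, zero_add] at a2
      have a5 := congrArg (fun T : Cm n →L[ℂ] ℂ => T ξ) (a1.symm.trans a2)
      have a6 : dV (Cm n) e x ξ = 0 := hξ
      simp only [ContinuousLinearMap.comp_apply, ContinuousLinearMap.smulRight_apply, a6,
        zero_smul] at a5
      exact a5
    obtain ⟨ξ', hξ'⟩ := h1 fun i => if i = σ then 0 else dV (Cm p) (ψ : Z → Cm p) (g x) η i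
    obtain ⟨ξ, hξ⟩ := surj_of_isUnit (H713.SA.isUnit_dV_chart (E := Cm n) hx) ξ'
    have hξ : dV (Cm n) (φ : X → Cm n) x ξ = ξ' := hξ
    have b1 : J.dif (Cm n) e x ξ = 0 := by
      rw [← hMσ ξ, hξ, hξ']
      simp
    refine ⟨ξ, b1, ?_⟩
    have b2 : ∀ i, i ≠ σ → dV (Cm p) (ψ : Z → Cm p) (g x) (dM (Cm n) (Cm p) g x ξ) i =
        dV (Cm p) (ψ : Z → Cm p) (g x) η i := by
      intro i hi
      rw [← hMi i hi ξ, hξ, hξ']
      simp [hi]
    set v : Cm p := dV (Cm p) (ψ : Z → Cm p) (g x) (dM (Cm n) (Cm p) g x ξ - η) with hv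
    have b3 : ∀ i, i ≠ σ → v i = 0 := by
      intro i hi
      rw [hv, map_sub, Pi.sub_apply, b2 i hi, sub_self]
    have b4 : v = v σ • (Pi.single σ 1 : Cm p) := by
      funext i
      by_cases hi : i = σ
      · subst hi; simp
      · simp [b3 i hi, Pi.single_eq_of_ne hi]
    have b5 : L v = 0 := by
      have c2 : dV (Cm p) d (g x) (dM (Cm n) (Cm p) g x ξ - η) = 0 := by
        rw [map_sub]
        have c3 : dV (Cm p) d (g x) (dM (Cm n) (Cm p) g x ξ) = 0 := hdg ξ b1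
        have c4 : dV (Cm p) d (g x) η = 0 := hη
        rw [c3, c4, sub_self]
      rw [hdL, ContinuousLinearMap.comp_apply] at c2
      exact c2
    have b6 : v σ = 0 := by
      rw [b4, map_smul, smul_eq_mul] at b5
      exact (mul_eq_zero.1 b5).resolve_right hσ
    have b7 : v = 0 := by rw [b4, b6, zero_smul]
    have b8 := inj_of_isUnit (H713.SA.isUnit_dV_chart (E := Cm p) hgx)
      (v := dM (Cm n) (Cm p) g x ξ - η) b7
    exact sub_eq_zero.1 b8

theorem holV_det {m : ℕ} {A : X → Matrix (Fin m) (Fin m) ℂ}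
    (hA : ∀ i j, HolV (Cm n) (fun z => A z i j) x) : HolV (Cm n) (fun z => (A z).det) x := by
  have h1 : (fun z => (A z).det) = fun z => ∑ σ : Equiv.Perm (Fin m),
      ((Equiv.Perm.sign σ : ℤ) : ℂ) * ∏ i, A z (σ i) i := by
    funext z
    rw [Matrix.det_apply']
  rw [h1]
  exact HolV.sum fun σ _ => HolV.mul (HolV.const _ _) (HolV.prod fun i _ => hA _ _)

theorem holV_Ms (hg : ∀ x, HolM (Cm n) (Cm p) g x) (hx : x ∈ (chartAt (Cm n) x₀).source)
    (hgx : g x ∈ (chartAt (Cm p) z₀).source) {e : X → ℂ} (he : HolV (Cm n) e x) (σ : Fin p)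
    (v : Cm n) (i : Fin p) : HolV (Cm n) (fun x' => Ms n p g e x₀ z₀ σ x' v i) x := by
  by_cases hi : i = σ
  · have h1 := H713.SA.holV_fderiv (V := ℂ) hx he
    have h2 : HolV (Cm n) (fun y => fderiv ℂ (e ∘ (chartAt (Cm n) x₀).symm)
        (chartAt (Cm n) x₀ y) v) x :=
      HolV.comp_contDiff (G := fun A : Cm n →L[ℂ] ℂ => A v)
        (ContinuousLinearMap.apply ℂ ℂ v).contDiff.contDiffAt h1
    refine h2.congr (Eventually.of_forall fun x' => ?_)
    simp [Ms, hi]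
  · have hGh : HolV (Cm n) (fun x' => (chartAt (Cm p) z₀ : Z → Cm p) (g x')) x :=
      HolV.comp (h := (chartAt (Cm p) z₀ : Z → Cm p)) (HolV.chart hgx) (hg x)
    have h1 := H713.SA.holV_fderiv (V := Cm p) hx hGh
    have h2 : HolV (Cm n) (fun y => fderiv ℂ ((fun x' => (chartAt (Cm p) z₀ : Z → Cm p) (g x')) ∘
        (chartAt (Cm n) x₀).symm) (chartAt (Cm n) x₀ y) v) x :=
      HolV.comp_contDiff (G := fun A : Cm n →L[ℂ] Cm p => A v)
        (ContinuousLinearMap.apply ℂ (Cm p) v).contDiff.contDiffAt h1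
    refine (HolV.eval h2 i).congr (Eventually.of_forall fun x' => ?_)
    simp [Ms, hi]

/-- the pull-backs of the local equations of `D` -/
def Pul (n p : ℕ) {X Z : Type} [TopologicalSpace X] [ChartedSpace (Cm n) X]
    [TopologicalSpace Z] [ChartedSpace (Cm p) Z] (g : X → Z) (D : Set Z) (x : X) (H : X → ℂ) :
    Prop :=
  HolV (Cm n) H x ∧ ∃ d : Z → ℂ, J.IsLocalEq (Cm p) D d (g x) ∧ ∀ᶠ z in 𝓝 x, H z = d (g z)

theorem locFam_pul (hg : ∀ x, HolM (Cm n) (Cm p) g x) {D : Set Z}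
    (hD : ∀ z, ∃ d, J.IsLocalEq (Cm p) D d z) : LocFam n (Pul n p g D) where
  hol := fun x H h => h.1
  near := fun x H h => by
    obtain ⟨h1, d, h2, h3⟩ := h
    filter_upwards [h1.eventually, (hg x).continuousAt.eventually (isLocalEq_eventually h2),
      h3.eventually_nhds] with x' a1 a2 a3
    exact ⟨a1, d, a2, a3⟩
  unit := fun x H H' h h' => by
    obtain ⟨h1, d, h2, h3⟩ := h
    obtain ⟨k1, d', k2, k3⟩ := h'
    obtain ⟨c, hc, hc0, hce⟩ := H76.unit_ratio_red k2 h2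
    refine ⟨fun z => c (g z), HolV.comp (E' := Cm p) hc (hg x), hc0, ?_⟩
    filter_upwards [h3, k3, (hg x).continuousAt.eventually hce] with z a1 a2 a3
    rw [a2, a1, a3]
  ex := fun x => by
    obtain ⟨d, hd⟩ := hD (g x)
    exact ⟨fun z => d (g z), HolV.comp (E' := Cm p) (h := d) (isLocalEq_holAt hd) (hg x), d, hd,
      Eventually.of_forall fun z => rfl⟩

variable {𝓗 : X → (X → ℂ) → Prop} {E : Set X}

/-- **division at the singular points of `E`** -/
theorem LocFam.split (h𝓗 : LocFam n 𝓗) (hE : J.IsPrime (Cm n) E) {k : ℕ}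
    (hk : ∀ x ∈ sm n E, OrdL n 𝓗 E x k) {x₁ : X} (hx₁ : x₁ ∈ E) {e H : X → ℂ}
    (he : J.IsLocalEq (Cm n) E e x₁) (hH : 𝓗 x₁ H) :
    ∃ u : X → ℂ, HolV (Cm n) u x₁ ∧ ∀ᶠ z in 𝓝 x₁, H z = e z ^ k * u z := by
  -- smooth points near a point of `E`
  have hsm : ∀ z ∈ E, ∃ᶠ z' in 𝓝 z, z' ∈ sm n E := fun z hz =>
    mem_closure_iff_frequently.1 (subset_closure_sm hE.2.1 hz)
  have hne : ∃ᶠ z in 𝓝 x₁, H z ≠ 0 := by
    rw [Filter.Frequently]
    intro hcon
    have hcon : ∀ᶠ z in 𝓝 x₁, H z = 0 := hcon.mono fun z hz => not_not.1 hz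
    obtain ⟨z, hz, a1, a2⟩ := ((hsm x₁ hx₁).and_eventually
      (hcon.eventually_nhds.and (h𝓗.near x₁ H hH))).exists
    obtain ⟨e', H', u, he', hde', hH', hu, hev, hne⟩ := hk z hz
    apply hne
    obtain ⟨c, hc, hc0, hce⟩ := h𝓗.unit z H H' a2 hH'
    have h3 : ∀ᶠ y in 𝓝 z, e' y ^ k * u y = 0 := by
      filter_upwards [hev, hce, a1] with y b1 b2 b3
      rw [← b1, b2, b3, mul_zero]
    filter_upwards [h3.eventually_nhds, hu.eventually, isLocalEq_eventually he'] with y b1 b2 b3 _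
    have h4 : ∃ᶠ t in 𝓝 y, e' t ≠ 0 := by
      rw [Filter.Frequently]
      intro hcon
      refine isLocalEq_not_zero b3 ?_
      filter_upwards [hcon] with t ht
      exact not_not.1 ht
    exact eq_of_freq' b2.continuousAt continuousAt_const
      ((h4.and_eventually b1).mono fun t ht =>
        (mul_eq_zero.1 ht.2).resolve_left (pow_ne_zero _ ht.1))
  obtain ⟨k', u, hu, hev, hfr⟩ := H76.S.exists_order (E := Cm n) he hx₁ (h𝓗.hol x₁ H hH) hne
  suffices hkk : k' = k by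
    rw [← hkk]
    exact ⟨u, hu, hev⟩
  obtain ⟨z, ⟨hzE, hz0⟩, a1, a2, a3, a4⟩ := (hfr.and_eventually
    (hev.eventually_nhds.and (hu.eventually.and ((h𝓗.near x₁ H hH).and
      (isLocalEq_eventually he))))).exists
  obtain ⟨z', hz', b1, b2, b3, b4, b5⟩ := ((hsm z hzE).and_eventually
    (a1.eventually_nhds.and (a2.eventually.and ((h𝓗.near z H a3).and
      ((isLocalEq_eventually a4).and (a2.continuousAt.eventually_ne hz0)))))).exists
  have h1 : OrdL n 𝓗 E z' k' := ⟨e, H, u, b4, dif_ne_of_mem_sm hz' b4, b3, b2, b1, fun hcon =>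
    b5 (hcon.self_of_nhds ((isLocalEq_mem_iff b4).self_of_nhds.1 hz'.1))⟩
  exact OrdL.unique h𝓗 hz'.1 h1 (hk z' hz')

end

end Vale.Agent.P281.H364.TM
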