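import Vale.Agent.P281.H740.TM.Spec
import Vale.Agent.P281.H364.TM.Sub
import Vale.Agent.P281.H495.TW.Dom
import Vale.Agent.P281.H64.Gen.Core

/-! P281, project T-M, blocks T3a and T3 (helper364): coefficients and orders. -/

open scoped Manifold ContDiff Topology
open Set Filter Metric Vale.Agent.P281
open Vale.Agent.P281.H713 Vale.Agent.P281.H511.Gen Vale.Agent.P281.H308.TW
open Vale.Agent.P281.H740.TM
open Vale.Agent.P281.H64 (Cm)
open Vale.Agent.P281.H64.Gen (IsSmallSet IsAnalyticSet)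

set_option linter.all false

noncomputable section

namespace Vale.Agent.P281.H364.TM

section
variable {n : ℕ} {X : Type} [TopologicalSpace X] [ChartedSpace (Cm n) X]
  [IsManifold 𝓘(ℂ, Cm n) ω X] {𝓗 : X → (X → ℂ) → Prop} {E : Set X} {x : X}

/-- the values of the quotients do not vanish at the same time -/
theorem LocFam.nz (h𝓗 : LocFam n 𝓗) {e e' H H' u u' : X → ℂ} {k : ℕ}
    (he : J.IsLocalEq (Cm n) E e x) (he' : J.IsLocalEq (Cm n) E e' x) (hH : 𝓗 x H)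
    (hH' : 𝓗 x H') (hu : HolV (Cm n) u x) (hu' : HolV (Cm n) u' x)
    (hev : ∀ᶠ z in 𝓝 x, H z = e z ^ k * u z) (hev' : ∀ᶠ z in 𝓝 x, H' z = e' z ^ k * u' z) :
    u x ≠ 0 ↔ u' x ≠ 0 := by
  obtain ⟨c₁, hc₁, hc₁0, hc₁e⟩ := H76.unit_ratio_red he' he
  obtain ⟨c₂, hc₂, hc₂0, hc₂e⟩ := h𝓗.unit x H H' hH hH'
  have hfr : ∃ᶠ t in 𝓝 x, e t ≠ 0 := by
    rw [Filter.Frequently]
    intro hcon
    refine isLocalEq_not_zero he ?_
    filter_upwards [hcon] with t ht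
    exact not_not.1 ht
  have h1 : ∀ᶠ z in 𝓝 x, e z ≠ 0 → c₂ z * u z = c₁ z ^ k * u' z := by
    filter_upwards [hc₁e, hc₂e, hev, hev'] with z a1 a2 a3 a4 a5
    have h2 : e z ^ k * (c₂ z * u z) = e z ^ k * (c₁ z ^ k * u' z) := by
      calc e z ^ k * (c₂ z * u z) = c₂ z * H z := by rw [a3]; ring
        _ = H' z := a2.symm
        _ = (c₁ z * e z) ^ k * u' z := by rw [a4, a1]
        _ = _ := by rw [mul_pow]; ring
    exact mul_left_cancel₀ (pow_ne_zero _ a5) h2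
  have h3 := eq_of_freq' (hc₂.mul hu).continuousAt ((hc₁.pow k).mul hu').continuousAt
    ((hfr.and_eventually h1).mono fun t ht => ht.2 ht.1)
  constructor
  · intro h4 h5
    rw [h5, mul_zero] at h3
    exact mul_ne_zero hc₂0 h4 h3
  · intro h4 h5
    rw [h5, mul_zero] at h3
    exact mul_ne_zero (pow_ne_zero _ hc₁0) h4 h3.symm

/-- the quotient does not vanish identically on `E` -/
theorem LocFam.freq (h𝓗 : LocFam n 𝓗) {k : ℕ} (hk : OrdL n 𝓗 E x k) {e H u : X → ℂ}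
    (he : J.IsLocalEq (Cm n) E e x) (hH : 𝓗 x H) (hu : HolV (Cm n) u x)
    (hev : ∀ᶠ z in 𝓝 x, H z = e z ^ k * u z) : ∃ᶠ z in 𝓝 x, z ∈ E ∧ u z ≠ 0 := by
  obtain ⟨e', H', u', he', -, hH', hu', hev', hne⟩ := hk
  have h1 : ∃ᶠ z in 𝓝 x, e' z = 0 ∧ u' z ≠ 0 := by
    rw [Filter.Frequently]
    intro hcon
    apply hne
    filter_upwards [hcon] with z h1 h2
    by_contra h3
    exact h1 ⟨h2, h3⟩
  refine (h1.and_eventually ((isLocalEq_eventually he).and ((isLocalEq_eventually he').and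
    ((h𝓗.near x H hH).and ((h𝓗.near x H' hH').and (hu.eventually.and (hu'.eventually.and
    (hev.eventually_nhds.and hev'.eventually_nhds)))))))).mono ?_
  rintro z ⟨⟨a1, a2⟩, b1, b2, b3, b4, b5, b6, b7, b8⟩
  exact ⟨(isLocalEq_mem_iff b2).self_of_nhds.2 a1,
    (h𝓗.nz b1 b2 b3 b4 b5 b6 b7 b8).2 a2⟩

/-- the zero set is analytic -/
theorem LocFam.analytic (h𝓗 : LocFam n 𝓗) :
    IsAnalyticSet (Cm n) {x | ∀ H, 𝓗 x H → H x = 0} := by
  intro x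
  obtain ⟨H, hH⟩ := h𝓗.ex x
  obtain ⟨U, hU, hUo, hxU⟩ := eventually_nhds_iff.1
    ((h𝓗.near x H hH).and (h𝓗.hol x H hH).eventually)
  refine ⟨U, Unit, fun _ => H, hUo, hxU, fun _ z hz => (hU z hz).2, fun z hz => ?_⟩
  constructor
  · intro h _
    exact h H (hU z hz).1
  · intro h H' hH'
    obtain ⟨c, hc, hc0, hce⟩ := h𝓗.unit z H H' (hU z hz).1 hH'
    rw [hce.self_of_nhds, show H z = 0 from h (), mul_zero]

/-- the local functions are not identically zero -/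
theorem LocFam.ne (h𝓗 : LocFam n 𝓗) [PreconnectedSpace X] (h : ∃ x H, 𝓗 x H ∧ H x ≠ 0)
    {H : X → ℂ} (hH : 𝓗 x H) : ¬ ∀ᶠ z in 𝓝 x, H z = 0 := by
  intro hcon
  have hA : {x | ∀ H, 𝓗 x H → H x = 0} ≠ univ := by
    obtain ⟨x₁, H₁, h1, h2⟩ := h
    intro h3
    have h4 : x₁ ∈ {x | ∀ H, 𝓗 x H → H x = 0} := by rw [h3]; exact mem_univ _
    exact h2 (h4 H₁ h1)
  obtain ⟨f, hf, hf0, hfe⟩ := (isThinSet_of_analytic h𝓗.analytic hA).2 x
  apply hf0
  filter_upwards [hcon, hfe, h𝓗.near x H hH] with z a1 a2 a3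
  refine a2 fun H' hH' => ?_
  obtain ⟨c, hc, hc0, hce⟩ := h𝓗.unit z H H' a3 hH'
  rw [hce.self_of_nhds, a1, mul_zero]

end

section
variable {p : ℕ} {X Z : Type} [TopologicalSpace X] [ChartedSpace (Cm (p + 1)) X]
  [IsManifold 𝓘(ℂ, Cm (p + 1)) ω X] [TopologicalSpace Z] [ChartedSpace (Cm p) Z]
  [IsManifold 𝓘(ℂ, Cm p) ω Z] {g : X → Z} {S : Set Z} {w : ℕ} {Θ : X → ℂ} {x : X} {H : X → ℂ}

theorem isCf_of_isCoef (h : IsCoef p g S w Θ x H) : IsCf (p + 1) p g S w Θ x H := by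
  obtain ⟨h1, h2⟩ := h
  refine ⟨x, g x, mem_chart_source _ _, mem_chart_source _ _, h1, ?_⟩
  filter_upwards [h2, (chartAt (Cm (p + 1)) x).open_source.mem_nhds
    (mem_chart_source (Cm (p + 1)) x)] with v h3 h4 h5
  rw [Tc, div_eq_iff (pow_ne_zero _ (jac_chart_ne_zero h4))]
  exact h3 h5

theorem preimage_cov' (hfib : ∃ Δ, H511.Surf.IsFibration (Cm (p + 1)) (Cm p) g Δ)
    (hS : IsSmallSet (Cm p) S) (hP : H64.IsProperFibration (n := p + 1) (p := p) g S) :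
    H64.Gen.Cov (p + 1) (g ⁻¹' S) := by
  obtain ⟨Δ, ⟨_, _⟩, _, _, ⟨-, -⟩, hgh, hgf, -⟩ := hfib
  have hd : Dense Sᶜ := H64.Gen.Cov.dense_compl (n := p) hS.2
  have hne : Nonempty Z := by
    obtain ⟨x⟩ := (inferInstance : Nonempty X)
    exact ⟨g x⟩
  obtain ⟨z, hz⟩ := hd.nonempty
  obtain ⟨x, hx⟩ := (hgf z).nonempty
  have hx : g x = z := hx
  refine H64.Gen.preimage_cov (fun z => hgh z) ⟨x, hP.submersive x ?_⟩ hS.2
  rw [hx]; exact hz

/-- **T3a** -/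
theorem coef : CoefStmt := by
  intro p X Z _ _ _ _ _ _ g Δ S e₀ w Θ hg hS hP hw hΘ x
  have hcov := preimage_cov' ⟨Δ, hg⟩ hS hP
  obtain ⟨⟨_, _⟩, _, _, -, hgh, hgf, -⟩ := hg
  obtain ⟨H, hH, hHe⟩ := ext_T (n := p + 1) (p := p) (fun x => hgh x) hP.isClosed
    (fun x hx => hP.submersive x hx) e₀ hcov hw hΘ (mem_chart_source (Cm (p + 1)) x)
    (mem_chart_source (Cm p) (g x))
  refine ⟨H, hH, ?_⟩
  filter_upwards [hHe, (chartAt (Cm (p + 1)) x).open_source.mem_nhds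
    (mem_chart_source (Cm (p + 1)) x)] with v h3 h4 h5
  have h6 := h3 h5
  rw [Tc, div_eq_iff (pow_ne_zero _ (jac_chart_ne_zero h4))] at h6
  exact h6

variable {E : Set X} {D : Set Z} {k o : ℕ}

theorem goodAt_mk (hL : LocFam (p + 1) (IsCf (p + 1) p g S w Θ))
    (hc : ∀ x, ∃ H, IsCoef p g S w Θ x H) (hxE : x ∈ E) {e : X → ℂ} {d : Z → ℂ} {u H v : X → ℂ}
    (he : J.IsLocalEq (Cm (p + 1)) E e x) (hde : J.dif (Cm (p + 1)) e x ≠ 0)
    (hd : J.IsLocalEq (Cm p) D d (g x)) (hdd : J.dif (Cm p) d (g x) ≠ 0)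
    (hu : HolV (Cm (p + 1)) u x) (hux : u x ≠ 0) (hfac : ∀ᶠ z in 𝓝 x, d (g z) = e z ^ k * u z)
    (hH : IsCf (p + 1) p g S w Θ x H) (hv : HolV (Cm (p + 1)) v x) (hvx : v x ≠ 0)
    (hHv : ∀ᶠ z in 𝓝 x, H z = e z ^ o * v z)
    (hsub : ∀ η : Cm p, J.dif (Cm p) d (g x) η = 0 → ∃ ξ : Cm (p + 1),
      J.dif (Cm (p + 1)) e x ξ = 0 ∧ mfderiv 𝓘(ℂ, Cm (p + 1)) 𝓘(ℂ, Cm p) g x ξ = η) :
    GoodAt p g S w Θ E D k o x := by
  obtain ⟨H', hH'⟩ := hc x
  obtain ⟨c, hc, hc0, hce⟩ := hL.unit x H H' hH (isCf_of_isCoef hH')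
  refine ⟨hxE, e, d, u, H', fun z => c z * v z, he, hde, hd, hdd, hu, hux, hfac, hH',
    HolV.mul hc hv, mul_ne_zero hc0 hvx, ?_, hsub⟩
  filter_upwards [hce, hHv] with z a1 a2
  rw [a1, a2]; ring

theorem goodAt_iff (hg : ∀ x, HolM (Cm (p + 1)) (Cm p) g x)
    (hL : LocFam (p + 1) (IsCf (p + 1) p g S w Θ)) (hL2 : LocFam (p + 1) (Pul (p + 1) p g D))
    (hc : ∀ x, ∃ H, IsCoef p g S w Θ x H) (hk : 0 < k) (hxE : x ∈ E) {x₀ : X} {z₀ : Z}
    (hx : x ∈ (chartAt (Cm (p + 1)) x₀).source) (hgx : g x ∈ (chartAt (Cm p) z₀).source)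
    {e : X → ℂ} {d : Z → ℂ} {u H v : X → ℂ}
    (he : J.IsLocalEq (Cm (p + 1)) E e x) (hd : J.IsLocalEq (Cm p) D d (g x))
    (hu : HolV (Cm (p + 1)) u x) (hfac : ∀ᶠ z in 𝓝 x, d (g z) = e z ^ k * u z)
    (hH : IsCf (p + 1) p g S w Θ x H) (hv : HolV (Cm (p + 1)) v x)
    (hHv : ∀ᶠ z in 𝓝 x, H z = e z ^ o * v z) :
    GoodAt p g S w Θ E D k o x ↔ ∃ i : Cm (p + 1) × Fin p × (Fin p → Cm (p + 1)),
      u x * v x * fderiv ℂ (e ∘ (chartAt (Cm (p + 1)) x₀).symm) (chartAt (Cm (p + 1)) x₀ x) i.1 *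
        fderiv ℂ (d ∘ (chartAt (Cm p) z₀).symm) (chartAt (Cm p) z₀ (g x))
          (Pi.single i.2.1 1) *
        Matrix.det (Matrix.of fun a b => Ms (p + 1) p g e x₀ z₀ i.2.1 x (i.2.2 b) a) ≠ 0 := by
  have hex : e x = 0 := (isLocalEq_mem_iff he).self_of_nhds.1 hxE
  have hgD : g x ∈ D := by
    refine (isLocalEq_mem_iff hd).self_of_nhds.2 ?_
    rw [hfac.self_of_nhds, hex, zero_pow hk.ne', zero_mul]
  have heh : HolV (Cm (p + 1)) e x := isLocalEq_holAt he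
  have hdh : HolV (Cm p) d (g x) := isLocalEq_holAt hd
  constructor
  · rintro ⟨-, e', d', u', H', v', he', hde', hd', hdd', hu', hux', hfac', hH', hv', hvx', hHv',
      hsub'⟩
    have hde : J.dif (Cm (p + 1)) e x ≠ 0 := dif_ne_of_mem_sm ⟨hxE, e', he', hde'⟩ he
    have hdd : J.dif (Cm p) d (g x) ≠ 0 := dif_ne_of_mem_sm ⟨hgD, d', hd', hdd'⟩ hd
    have hux : u x ≠ 0 := (hL2.nz he he' (H := fun z => d (g z)) (H' := fun z => d' (g z))
      ⟨HolV.comp (E' := Cm p) (h := d) hdh (hg x), d, hd, Eventually.of_forall fun z => rfl⟩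
      ⟨HolV.comp (E' := Cm p) (h := d') (isLocalEq_holAt hd') (hg x), d', hd',
        Eventually.of_forall fun z => rfl⟩ hu hu' hfac hfac').2 hux'
    have hvx : v x ≠ 0 := (hL.nz he he' hH (isCf_of_isCoef hH') hv hv' hHv hHv').2 hvx'
    -- the kernels
    have hex' : e' x = 0 := (isLocalEq_mem_iff he').self_of_nhds.1 hxE
    obtain ⟨c, hc, hc0, hce⟩ := exists_unit (isLocalEq_holAt he') hex' hde'
      (isLocalEq_mem_iff he') he
    have e1 := dif_mul_unit (isLocalEq_holAt he') hex' hc hce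
    have hdx' : d' (g x) = 0 := (isLocalEq_mem_iff hd').self_of_nhds.1 hgD
    obtain ⟨b, hb, hb0, hbe⟩ := exists_unit (isLocalEq_holAt hd') hdx' hdd'
      (isLocalEq_mem_iff hd') hd
    have e2 := dif_mul_unit (isLocalEq_holAt hd') hdx' hb hbe
    have hsub : ∀ η : Cm p, J.dif (Cm p) d (g x) η = 0 → ∃ ξ : Cm (p + 1),
        J.dif (Cm (p + 1)) e x ξ = 0 ∧ mfderiv 𝓘(ℂ, Cm (p + 1)) 𝓘(ℂ, Cm p) g x ξ = η := by
      intro η hη
      rw [e2] at hη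
      have hη' : J.dif (Cm p) d' (g x) η = 0 := by
        have h3 : b (g x) • J.dif (Cm p) d' (g x) η = 0 := hη
        exact (smul_eq_zero.1 h3).resolve_left hb0
      obtain ⟨ξ, h4, h5⟩ := hsub' η hη'
      refine ⟨ξ, ?_, h5⟩
      rw [e1]
      show c x • J.dif (Cm (p + 1)) e' x ξ = 0
      rw [h4, smul_zero]
    have h1 := (dif_ne_iff_chart hx (isLocalEq_holAt he)).1 hde
    have h2 := (dif_ne_iff_chart hgx (isLocalEq_holAt hd)).1 hdd
    obtain ⟨ξ, hξ⟩ : ∃ ξ, fderiv ℂ (e ∘ (chartAt (Cm (p + 1)) x₀).symm)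
        (chartAt (Cm (p + 1)) x₀ x) ξ ≠ 0 := by
      by_contra hcon
      push Not at hcon
      exact h1 (ContinuousLinearMap.ext hcon)
    obtain ⟨σ, hσ⟩ : ∃ σ : Fin p, fderiv ℂ (d ∘ (chartAt (Cm p) z₀).symm)
        (chartAt (Cm p) z₀ (g x)) (Pi.single σ 1) ≠ 0 := by
      by_contra hcon
      push Not at hcon
      apply h2
      ext v
      rw [show v = ∑ i, v i • (Pi.single i 1 : Fin p → ℂ) from by
        funext j
        simp [Finset.sum_apply, Pi.single_apply], map_sum]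
      simp [hcon]
    obtain ⟨a, ha⟩ := (H364.surj_iff_det _).1
      ((sub_iff hg hx hgx hk heh hex hde hdh hσ hu hfac).1 hsub)
    exact ⟨⟨ξ, σ, a⟩, mul_ne_zero (mul_ne_zero (mul_ne_zero (mul_ne_zero hux hvx) hξ) hσ) ha⟩
  · rintro ⟨⟨ξ, σ, a⟩, h⟩
    have h1 := right_ne_zero_of_mul h
    have h' := left_ne_zero_of_mul h
    have h2 := right_ne_zero_of_mul h'
    have h'' := left_ne_zero_of_mul h'
    have h3 := right_ne_zero_of_mul h''
    have h4 := left_ne_zero_of_mul h''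
    have hde : J.dif (Cm (p + 1)) e x ≠ 0 := (dif_ne_iff_chart hx (isLocalEq_holAt he)).2
      fun h0 => h3 (by rw [h0]; rfl)
    have hdd : J.dif (Cm p) d (g x) ≠ 0 := (dif_ne_iff_chart hgx (isLocalEq_holAt hd)).2
      fun h0 => h2 (by rw [h0]; rfl)
    exact goodAt_mk hL hc hxE he hde hd hdd hu (left_ne_zero_of_mul h4) hfac hH hv
      (right_ne_zero_of_mul h4) hHv
      ((sub_iff hg hx hgx hk heh hex hde hdh h2 hu hfac).2 ((H364.surj_iff_det _).2 ⟨a, h1⟩))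

/-- the bad points form an analytic set -/
theorem analytic_bad (hg : ∀ x, HolM (Cm (p + 1)) (Cm p) g x)
    (hL : LocFam (p + 1) (IsCf (p + 1) p g S w Θ)) (hL2 : LocFam (p + 1) (Pul (p + 1) p g D))
    (hc : ∀ x, ∃ H, IsCoef p g S w Θ x H) (hE : J.IsPrime (Cm (p + 1)) E)
    (hD : J.IsPrime (Cm p) D) (hk : 0 < k)
    (hk1 : ∀ x ∈ sm (p + 1) E, OrdL (p + 1) (Pul (p + 1) p g D) E x k)
    (ho1 : ∀ x ∈ sm (p + 1) E, OrdL (p + 1) (IsCf (p + 1) p g S w Θ) E x o) :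
    IsAnalyticSet (Cm (p + 1)) {x | x ∈ E ∧ ¬ GoodAt p g S w Θ E D k o x} := by
  intro x₁
  by_cases hx₁ : x₁ ∈ E
  swap
  · refine ⟨Eᶜ, Unit, fun _ _ => 1, hE.1.isOpen_compl, hx₁, fun _ z _ => contMDiffAt_const,
      fun z hz => ?_⟩
    constructor
    · rintro ⟨h1, -⟩
      exact absurd h1 hz
    · intro h
      exact absurd (h ()) one_ne_zero
  obtain ⟨e, he⟩ := hE.2.1 x₁
  obtain ⟨d, hd⟩ := hD.2.1 (g x₁)
  obtain ⟨H, hH⟩ := hL.ex x₁
  obtain ⟨v, hv, hHv⟩ := hL.split hE ho1 hx₁ he hH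
  obtain ⟨u, hu, hfac⟩ := hL2.split hE hk1 hx₁ he (H := fun z => d (g z))
    ⟨HolV.comp (E' := Cm p) (h := d) (isLocalEq_holAt hd) (hg x₁), d, hd,
      Eventually.of_forall fun z => rfl⟩
  have hgc : ContinuousAt g x₁ := (hg x₁).continuousAt
  set φ := chartAt (Cm (p + 1)) x₁ with hφ
  set ψ := chartAt (Cm p) (g x₁) with hψ
  have q1 : ∀ᶠ z in 𝓝 x₁, z ∈ φ.source := φ.open_source.mem_nhds (mem_chart_source _ x₁)
  have q2 : ∀ᶠ z in 𝓝 x₁, g z ∈ ψ.source :=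
    hgc.eventually (ψ.open_source.mem_nhds (mem_chart_source _ (g x₁)))
  have q3 : ∀ᶠ z in 𝓝 x₁, J.IsLocalEq (Cm p) D d (g z) :=
    hgc.eventually (isLocalEq_eventually hd)
  obtain ⟨U, hU, hUo, hxU⟩ := _root_.eventually_nhds_iff.1
    (((q1.and q2).and ((isLocalEq_eventually he).and q3)).and
      ((hu.eventually.and hfac.eventually_nhds).and
      ((hL.near x₁ H hH).and (hv.eventually.and hHv.eventually_nhds))))
  set F : Cm (p + 1) × Fin p × (Fin p → Cm (p + 1)) → X → ℂ := fun i x =>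
      u x * v x * fderiv ℂ (e ∘ φ.symm) (φ x) i.1 *
        fderiv ℂ (d ∘ ψ.symm) (ψ (g x)) (Pi.single i.2.1 1) *
        Matrix.det (Matrix.of fun a b => Ms (p + 1) p g e x₁ (g x₁) i.2.1 x (i.2.2 b) a) with hF
  have hFh : ∀ i, ∀ z ∈ U, HolV (Cm (p + 1)) (F i) z := by
    intro i z hz
    obtain ⟨⟨⟨a1, a2⟩, a3, a4⟩, ⟨a5, a6⟩, a7, a8, a9⟩ := hU z hz
    have heh : HolV (Cm (p + 1)) e z := isLocalEq_holAt a3
    have hdh : HolV (Cm p) d (g z) := isLocalEq_holAt a4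
    have b1 : HolV (Cm (p + 1)) (fun x => fderiv ℂ (e ∘ φ.symm) (φ x) i.1) z :=
      HolV.comp_contDiff (G := fun A : Cm (p + 1) →L[ℂ] ℂ => A i.1)
        (ContinuousLinearMap.apply ℂ ℂ i.1).contDiff.contDiffAt
        (H713.SA.holV_fderiv (V := ℂ) a1 heh)
    have b2 : HolV (Cm p) (fun y => fderiv ℂ (d ∘ ψ.symm) (ψ y) (Pi.single i.2.1 1)) (g z) :=
      HolV.comp_contDiff (G := fun A : Cm p →L[ℂ] ℂ => A (Pi.single i.2.1 1))
        (ContinuousLinearMap.apply ℂ ℂ (Pi.single i.2.1 1 : Cm p)).contDiff.contDiffAt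
        (H713.SA.holV_fderiv (V := ℂ) a2 hdh)
    have b3 : HolV (Cm (p + 1)) (fun x => fderiv ℂ (d ∘ ψ.symm) (ψ (g x))
        (Pi.single i.2.1 1)) z := HolV.comp (E' := Cm p)
      (h := fun y => fderiv ℂ (d ∘ ψ.symm) (ψ y) (Pi.single i.2.1 1)) b2 (hg z)
    exact HolV.mul (HolV.mul (HolV.mul (HolV.mul a5 a8) b1) b3)
      (holV_det fun a b => holV_Ms hg a1 a2 heh i.2.1 (i.2.2 b) a)
  refine ⟨U, Option (Cm (p + 1) × Fin p × (Fin p → Cm (p + 1))), fun i => i.elim e F, hUo, hxU,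
    ?_, ?_⟩
  · rintro (_ | i) z hz
    · exact isLocalEq_holAt (hU z hz).1.2.1
    · exact hFh i z hz
  · intro z hz
    obtain ⟨⟨⟨a1, a2⟩, a3, a4⟩, ⟨a5, a6⟩, a7, a8, a9⟩ := hU z hz
    constructor
    · rintro ⟨h1, h2⟩
      rintro (_ | i)
      · exact (isLocalEq_mem_iff a3).self_of_nhds.1 h1
      · by_contra h3
        exact h2 ((goodAt_iff hg hL hL2 hc hk h1 a1 a2 a3 a4 a5 a6 a7 a8 a9).2 ⟨i, h3⟩)
    · intro h
      have h1 : z ∈ E := (isLocalEq_mem_iff a3).self_of_nhds.2 (h none)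
      refine ⟨h1, fun h2 => ?_⟩
      obtain ⟨i, hi⟩ := (goodAt_iff hg hL hL2 hc hk h1 a1 a2 a3 a4 a5 a6 a7 a8 a9).1 h2
      exact hi (h (some i))

/-- the orders at a good point -/
theorem goodAt_ords (hg : ∀ x, HolM (Cm (p + 1)) (Cm p) g x) (h : GoodAt p g S w Θ E D k o x) :
    x ∈ sm (p + 1) E ∧ OrdL (p + 1) (Pul (p + 1) p g D) E x k ∧
      OrdL (p + 1) (IsCf (p + 1) p g S w Θ) E x o := by
  obtain ⟨hxE, e, d, u, H, v, he, hde, hd, hdd, hu, hux, hfac, hH, hv, hvx, hHv, hsub⟩ := h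
  have hex : e x = 0 := (isLocalEq_mem_iff he).self_of_nhds.1 hxE
  refine ⟨⟨hxE, e, he, hde⟩, ⟨e, fun z => d (g z), u, he, hde,
    ⟨HolV.comp (E' := Cm p) (h := d) (isLocalEq_holAt hd) (hg x), d, hd,
      Eventually.of_forall fun z => rfl⟩, hu, hfac, fun hcon => hux (hcon.self_of_nhds hex)⟩,
    ⟨e, H, v, he, hde, isCf_of_isCoef hH, hv, hHv, fun hcon => hvx (hcon.self_of_nhds hex)⟩⟩

/-- the order of a relative form is at least `w (k - 1)` -/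
theorem goodAt_le (hg : ∀ x, HolM (Cm (p + 1)) (Cm p) g x) (hw : 0 < w) (hk : 0 < k)
    {e₀ : Cm (p + 1) ≃L[ℂ] (Cm p × ℂ)} (hΘ : RF g S e₀ w Θ)
    (hcov : H64.Gen.Cov (p + 1) (g ⁻¹' S)) [T2Space X] (h : GoodAt p g S w Θ E D k o x) :
    w * (k - 1) ≤ o := by
  obtain ⟨hxE, e, d, u, H, v, he, hde, hd, hdd, hu, hux, hfac, hH, hv, hvx, hHv, hsub⟩ := h
  have hex : e x = 0 := (isLocalEq_mem_iff he).self_of_nhds.1 hxE
  have heh : HolV (Cm (p + 1)) e x := isLocalEq_holAt he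
  have hdx : d (g x) = 0 := by
    rw [hfac.self_of_nhds, hex, zero_pow hk.ne', zero_mul]
  obtain ⟨C, hC⟩ := ELL.rel_bound_GP (f := g) hg (S := S) (A := (∅ : Set X)) e₀ hw (Θ := Θ)
    (fun r hr => by
      obtain ⟨M, hM⟩ := hΘ.bound r hr
      exact ⟨M, fun v₀ Q h1 h2 h3 h4 _ P hP => hM v₀ Q h1 h2 h3 h4
        (fun v _ D hD => absurd hD (notMem_empty D)) P hP⟩)
    (mem_chart_source (Cm (p + 1)) x) (mem_chart_source (Cm p) (g x)) hk heh hex hde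
    (isLocalEq_holAt hd) hdx hdd hu hux hfac hsub
    (Eventually.of_forall fun z _ hz => absurd hz (notMem_empty z))
  by_contra hcon
  push Not at hcon
  obtain ⟨b, hb⟩ := Nat.exists_eq_add_of_lt hcon
  have hdense : Dense (g ⁻¹' S)ᶜ := hcov.dense_compl
  have hfr : ∃ᶠ t in 𝓝 x, g t ∉ S ∧ e t ≠ 0 := by
    have h1 : ∃ᶠ t in 𝓝 x, e t ≠ 0 := by
      rw [Filter.Frequently]
      intro hcon
      refine isLocalEq_not_zero he ?_
      filter_upwards [hcon] with t ht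
      exact not_not.1 ht
    intro hc
    obtain ⟨t, ht, a1, a2⟩ := (h1.and_eventually (hc.eventually_nhds.and heh.eventually)).exists
    obtain ⟨t', b1, b2, b3⟩ := ((mem_closure_iff_frequently.1 (hdense t)).and_eventually
      (a1.and (a2.continuousAt.eventually_ne ht))).exists
    exact b2 ⟨b1, b3⟩
  have hlim : ContinuousAt (fun z => |C| * ‖e z‖ ^ (b + 1) - ‖v z‖) x :=
    (continuousAt_const.mul (heh.continuousAt.norm.pow _)).sub
      (show HolV (Cm (p + 1)) v x from hv).continuousAt.norm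
  have hneg : |C| * ‖e x‖ ^ (b + 1) - ‖v x‖ < 0 := by
    rw [hex, norm_zero, zero_pow (Nat.succ_ne_zero b), mul_zero, zero_sub]
    exact neg_lt_zero.2 (norm_pos_iff.2 hvx)
  obtain ⟨t, ⟨ht1, ht2⟩, a1, a2, a3, a4, a5⟩ := (hfr.and_eventually
    ((hlim.eventually_lt_const hneg).and (hC.and (hH.2.and (hHv.and
      ((chartAt (Cm (p + 1)) x).open_source.mem_nhds (mem_chart_source _ x))))))).exists
  have h2 := a2 ht1
  rw [norm_mul, norm_pow] at h2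
  have hj : 0 < ‖jac (Cm (p + 1)) (chartAt (Cm (p + 1)) x) t ^ w‖ :=
    norm_pos_iff.2 (pow_ne_zero _ (jac_chart_ne_zero a5))
  have h3 : ‖H t‖ * ‖jac (Cm (p + 1)) (chartAt (Cm (p + 1)) x) t ^ w‖ ≤
      C * ‖e t‖ ^ (w * (k - 1)) * ‖jac (Cm (p + 1)) (chartAt (Cm (p + 1)) x) t ^ w‖ := by
    rw [← norm_mul, ← a3 ht1, norm_mul, norm_pow]
    exact h2
  have h4 := le_of_mul_le_mul_right h3 hj
  rw [a4, norm_mul, norm_pow, hb, show o + b + 1 = o + (b + 1) by ring, pow_add] at h4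
  have he0 : 0 < ‖e t‖ := norm_pos_iff.2 ht2
  have h5 : ‖e t‖ ^ o * ‖v t‖ ≤ ‖e t‖ ^ o * (|C| * ‖e t‖ ^ (b + 1)) := by
    calc ‖e t‖ ^ o * ‖v t‖ ≤ C * (‖e t‖ ^ o * ‖e t‖ ^ (b + 1)) := h4
      _ ≤ |C| * (‖e t‖ ^ o * ‖e t‖ ^ (b + 1)) :=
          mul_le_mul_of_nonneg_right (le_abs_self C) (by positivity)
      _ = _ := by ring
  have h6 := le_of_mul_le_mul_left h5 (pow_pos he0 o)
  linarith

end

/-- **T3** -/
theorem ord : OrdStmt := by
  intro p X Z _ _ _ _ _ _ g Δ S e₀ w Θ hstd E D hE hD him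
  obtain ⟨hfib, hS, hP, hw, hΘ, x₀, hx₀S, hΘx₀⟩ := hstd
  have hcov := preimage_cov' ⟨Δ, hfib⟩ hS hP
  have hcf := coef p X Z g Δ S e₀ w Θ hfib hS hP hw hΘ
  obtain ⟨⟨_, _⟩, _, _, -, hgh, hgf, -⟩ := hfib
  have hg : ∀ x, HolM (Cm (p + 1)) (Cm p) g x := fun x => hgh x
  have hL := locFam (n := p + 1) (p := p) hg hP.isClosed (fun x hx => hP.submersive x hx) e₀
    hcov hw hΘ
  have hL2 := locFam_pul (n := p + 1) (p := p) hg hD.2.1
  have hsurj : Function.Surjective g := fun z => (hgf z).nonempty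
  -- a point
  obtain ⟨y₁, hy₁⟩ := hD.2.2.nonempty
  obtain ⟨x₁, hx₁E, -, e, d, he, hde, hd, hdd, hsub⟩ := H495.TW.dom hgh hE hD him hy₁.1
    (t := univ) univ_mem
  have hx₁ : x₁ ∈ sm (p + 1) E := ⟨hx₁E, e, he, hde⟩
  have hex : e x₁ = 0 := (isLocalEq_mem_iff he).self_of_nhds.1 hx₁E
  have hgD : ∀ x ∈ E, g x ∈ D := fun x hx => by
    rw [← him]; exact subset_closure (mem_image_of_mem g hx)
  have hHd : Pul (p + 1) p g D x₁ fun z => d (g z) :=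
    ⟨HolV.comp (E' := Cm p) (h := d) (isLocalEq_holAt hd) (hg x₁), d, hd,
      Eventually.of_forall fun z => rfl⟩
  have hne : ∃ x, g x ∉ D := by
    obtain ⟨z, -, hz⟩ := IsLocalEq.exists_notMem (E := Cm p) (D := D) hD.2.1 isOpen_univ
      ⟨y₁, mem_univ _⟩
    obtain ⟨x, rfl⟩ := hsurj z
    exact ⟨x, hz⟩
  obtain ⟨k, hk⟩ := OrdL.exists hL2 hx₁ hHd (by
    intro hcon
    apply not_eventually_preimage hgh hD.2.1 hne x₁
    filter_upwards [hcon, (hg x₁).continuousAt.eventually (isLocalEq_mem_iff hd)] with z a1 a2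
    exact a2.2 a1)
  have hk1 := hk.all hL2 hE hx₁
  obtain ⟨H, hH⟩ := hL.ex x₁
  have hne' : ∃ x H, IsCf (p + 1) p g S w Θ x H ∧ H x ≠ 0 := by
    obtain ⟨H₀, hH₀⟩ := hcf x₀
    refine ⟨x₀, H₀, isCf_of_isCoef hH₀, fun h0 => ?_⟩
    have h1 := hH₀.2.self_of_nhds hx₀S
    rw [h0, zero_mul] at h1
    rcases mul_eq_zero.1 h1 with h2 | h2
    · exact pow_ne_zero _ (jac_chart_ne_zero (mem_chart_source _ _)) h2
    · exact hΘx₀ h2
  obtain ⟨o, ho⟩ := OrdL.exists hL hx₁ hH (hL.ne hne' hH)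
  have ho1 := ho.all hL hE hx₁
  obtain ⟨u, hu, hfac⟩ := hL2.split hE hk1 hx₁E he hHd
  obtain ⟨v, hv, hHv⟩ := hL.split hE ho1 hx₁E he hH
  have hk0 : 0 < k := by
    rcases Nat.eq_zero_or_pos k with rfl | h
    · exfalso
      obtain ⟨z, ⟨hz1, hz2⟩, a1⟩ := ((hL2.freq hk he hHd hu hfac).and_eventually
        (hfac.and ((hg x₁).continuousAt.eventually (isLocalEq_mem_iff hd)))).exists
      have h1 := a1.1
      rw [pow_zero, one_mul, a1.2.1 (hgD z hz1)] at h1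
      exact hz2 h1.symm
    · exact h
  have hbad := analytic_bad hg hL hL2 hcf hE hD hk0 hk1 ho1
  -- a good point
  have hgood : ∃ x, GoodAt p g S w Θ E D k o x := by
    obtain ⟨z₁, ⟨h1, h2⟩, a1, a2, a3, a4, a5, a6⟩ := ((hL2.freq hk he hHd hu hfac).and_eventually
      (((isLocalEq_eventually he).and ((hg x₁).continuousAt.eventually
        (isLocalEq_eventually hd))).eventually_nhds.and
      (((eventually_dif_ne (isLocalEq_holAt he) hde).and ((hg x₁).continuousAt.eventually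
        (eventually_dif_ne (isLocalEq_holAt hd) hdd))).eventually_nhds.and
      ((hu.eventually.and hfac.eventually_nhds).eventually_nhds.and
      ((hL.near x₁ H hH).eventually_nhds.and ((hv.eventually.and
        hHv.eventually_nhds).eventually_nhds.and
      (sub_ev hg hk0 (isLocalEq_holAt he) hde (isLocalEq_holAt hd) hdd hu hfac
        hsub).eventually_nhds)))))).exists
    have b1 := a1.self_of_nhds
    have b2 := a2.self_of_nhds
    have b3 := a3.self_of_nhds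
    have b4 := a4.self_of_nhds
    have b5 := a5.self_of_nhds
    have hz₁ : z₁ ∈ sm (p + 1) E := ⟨h1, e, b1.1, b2.1⟩
    obtain ⟨z₂, ⟨k1, k2⟩, c1, c2, c3, c4, c5, c6, c7⟩ :=
      ((hL.freq (ho1 z₁ hz₁) b1.1 b4 b5.1 b5.2).and_eventually
      (a1.and (a2.and (a3.and (a4.and (a5.and (a6.and
        (b3.1.continuousAt.eventually_ne h2)))))))).exists
    exact ⟨z₂, goodAt_mk hL hcf k1 c1.1 c2.1 c1.2 c2.2 c3.1 c7 c3.2 c4 c5.1 k2 c5.2
      (c6 ((isLocalEq_mem_iff c1.1).self_of_nhds.1 k1))⟩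
  obtain ⟨x₂, hx₂⟩ := hgood
  refine ⟨k, o, hk0, goodAt_le hg hw hk0 hΘ hcov hx₂, hbad, ?_, ?_⟩
  · have hnot : ¬ E ⊆ {x | x ∈ E ∧ ¬ GoodAt p g S w Θ E D k o x} := fun h =>
      (h hx₂.1).2 hx₂
    refine (subset_closure_diff hE hbad hnot).trans (closure_mono ?_)
    rintro x ⟨h1, h2⟩
    by_contra h3
    exact h2 ⟨h1.1, h3⟩
  · intro k' o' x h
    obtain ⟨h1, h2, h3⟩ := goodAt_ords hg h
    exact ⟨OrdL.unique hL2 h1.1 h2 (hk1 x h1), OrdL.unique hL h1.1 h3 (ho1 x h1)⟩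

end Vale.Agent.P281.H364.TM
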