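import Vale.Agent.P281.H740.TM.Spec
import Vale.Agent.P281.H740.TW.Level
import Vale.Agent.P281.H364.Gen.Crit
import Vale.Agent.P281.H150.Gen.Img
import Vale.Agent.P281.H64.Thin.Core

/-!
# P281, project T-M, T12 (helper364): the final plug
-/

open Set Filter Metric
open Vale.Agent.P281 Vale.Agent.P281.H713 Vale.Agent.P281.H713.TZ.S
open Vale.Agent.P281.H64.Thin (IsThinSet)
open Vale.Agent.P281.H64.Gen (IsSmallSet CritStmt)
open Vale.Agent.P281.H740.TM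
open scoped Manifold ContDiff Topology

noncomputable section

namespace Vale.Agent.P281.H364.TM

/-- **T12**: T1, T2, T5, T6, T7, T8, T10 give T-M. -/
theorem tm_of' (crit : CritStmt) (ell : EllStmt) (dich : DichStmt) (l2 : L2Stmt)
    (theta : ThetaStmt) (mb : MBaseStmt) (flag : FlagStmt) (restr : RestrStmt) : TMStmt := by
  intro q X Z Y _ _ _ _ _ _ g h Δ hg hh hell hΔ
  have : T2Space X := hg.hausdorff.1
  have : T2Space Z := hg.hausdorff.2
  have : T2Space Y := hh.hausdorff.2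
  have : CompactSpace Z := hh.compact
  have : ConnectedSpace Z := hh.connected
  have : IsManifold 𝓘(ℂ, Cm (q + 1 + 1)) ω X := hg.manifold.1
  have : IsManifold 𝓘(ℂ, Cm (q + 1)) ω Z := hg.manifold.2
  have : IsManifold 𝓘(ℂ, Cm q) ω Y := hh.manifold.2
  obtain ⟨S, hS, hP, hT⟩ := ell (q + 1) X Z g Δ hg hell
  have hfr : Module.finrank ℂ (Cm (q + 1 + 1)) = Module.finrank ℂ (Cm (q + 1) × ℂ) := by
    simp only [Module.finrank_prod, Module.finrank_fin_fun, Module.finrank_self]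
  let e₀ : Cm (q + 1 + 1) ≃L[ℂ] (Cm (q + 1) × ℂ) := ContinuousLinearEquiv.ofFinrankEq hfr
  have hd := dich (q + 1) X Z g Δ S e₀ hg hS hP hT
  obtain ⟨K, Θ, hK, hne, hle⟩ := l2 (q + 1) X Z g Δ S e₀ hg hS hP hT
  obtain ⟨w, Θ', hstd, hle'⟩ := theta (q + 1) X Z g Δ S e₀ hg hS hP K Θ hK hle hne
  obtain ⟨Γ, hΓ⟩ : ∃ Γ : Set Z → ℝ, Γ = mbase (q + 1) g S w Θ' Δ := ⟨_, rfl⟩
  obtain ⟨hfin, hpr, hrat, hmem⟩ := mb (q + 1) X Z g Δ S e₀ w Θ' hstd hle' Γ hΓ
  obtain ⟨H₁, hH₁, hfl⟩ := flag q X Z Y g h Δ S e₀ w Θ' hstd hh Γ hfin hpr hrat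
    fun D hD => (hmem D hD).2
  obtain ⟨H₂, hH₂, hre⟩ := restr q X Z Y g h Δ S e₀ w Θ' hstd hd hΔ hh Γ hfin hpr hrat
    fun D hD => (hmem D hD).1
  obtain ⟨Sh, hSh, hPh⟩ := crit (q + 1) q Z Y h hh.hol hh.fibres
  obtain ⟨Kh, hKh, hsub⟩ := hSh.2
  have hPh' := hPh Sh subset_rfl hSh.1
  refine ⟨fun k => H₁ k ∪ (H₂ k ∪ Kh k), fun k => H64.Thin.IsThinSet.union (hH₁ k)
    (H64.Thin.IsThinSet.union (hH₂ k) (hKh k)), fun y hy F _ _ _ i hi hinj => ?_⟩
  have hyS : y ∉ Sh := by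
    intro h1
    obtain ⟨k, hk⟩ := mem_iUnion.1 (hsub h1)
    exact hy k (Or.inr (Or.inr hk))
  have hn : Module.finrank ℂ (Cm (q + 1)) =
      Module.finrank ℂ (Cm q) + Module.finrank ℂ (Cm 1) := by
    simp only [Module.finrank_fin_fun]
  have hhsub : ∀ z, h z = y → Function.Surjective
      (mfderiv 𝓘(ℂ, Cm (q + 1)) 𝓘(ℂ, Cm q) h z) := fun z hz =>
    hPh'.submersive z (by rw [hz]; exact hyS)
  obtain ⟨cs, hman, hval, hvimm⟩ := H740.exists_level (E₀ := Cm 1) hn hh.hol hhsub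
  have hcomp : CompactSpace (h ⁻¹' {y}) :=
    isCompact_iff_compactSpace.1 (isClosed_singleton.preimage hh.hol.continuous).isCompact
  have hconn : ConnectedSpace (h ⁻¹' {y}) := isConnected_iff_connectedSpace.1 (hh.fibres y)
  have hfibC : H511.Surf.IsFibre (Cm (q + 1)) (Cm 1) h y (Subtype.val : h ⁻¹' {y} → Z) :=
    ⟨hcomp, hconn, hman, hval, hvimm, fun t => t.2⟩
  have h1 := hfl y (fun k hk => hy k (Or.inl hk)) (h ⁻¹' {y}) Subtype.val hfibC
  have h2 := hre y (fun k hk => hy k (Or.inr (Or.inl hk))) F i (h ⁻¹' {y}) Subtype.val hi hinj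
    hfibC Subtype.val_injective
  exact (add_le_add h2 le_rfl).trans h1

theorem tm_of (ell : EllStmt) (dich : DichStmt) (l2 : L2Stmt) (theta : ThetaStmt)
    (mb : MBaseStmt) (flag : FlagStmt) (restr : RestrStmt) : TMStmt :=
  tm_of' (H364.crit H150.Gen.img) ell dich l2 theta mb flag restr

end Vale.Agent.P281.H364.TM
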