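import Vale.Agent.P281.H364.TM.Glob
import Vale.Agent.P281.H125.TM.L2

/-! P281, project T-M, block T5 (helper364): `LGlobStmt`, `L2Stmt`. -/

open scoped Manifold ContDiff Topology ENNReal
open Set Filter Metric MeasureTheory Vale.Agent.P281
open Vale.Agent.P281.H713 Vale.Agent.P281.H511.Gen
open Vale.Agent.P281.H740.TM
open Vale.Agent.P281.H64 (Cm)

set_option linter.all false

noncomputable section

namespace Vale.Agent.P281.H364.TM

/-- **(L), global**, in the letters of helper125 -/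
theorem lglob : H125.TM.LGlobStmt := by
  intro p X Z _ _ _ _ _ _ g Δ S e₀ hfib hS hP K Θ hK _ D hD hneg
  have hfib' := hfib
  obtain ⟨⟨_, _⟩, _, _, -, hgh, hgf, hΔ⟩ := hfib
  obtain ⟨V, hV, ⟨z₀, hz₀V, hz₀D, q, hq, hdq⟩, hVE⟩ :=
    exists_gen (n := p + 1) (p := p) hgh (fun z => (hgf z).nonempty) hD
  refine ⟨z₀, q, isLocalEq_holAt hq, (isLocalEq_mem_iff hq).self_of_nhds.1 hz₀D, hdq, ?_⟩
  rintro x rfl k hk
  obtain ⟨ρ, hρ, -, hint⟩ := lint_glob hfib' hS hP (hK k hk).1 (hK k hk).2 hD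
    (fun E κ o x hE hED hG => by
      by_contra hcon
      push Not at hcon
      exact hneg k hk ⟨E, κ, o, x, hE, hED, hG, hcon⟩) hV hVE hz₀V hq
  exact ⟨ρ, hρ, hint⟩

/-- **T5** -/
theorem t5 : L2Stmt := H125.TM.l2 lglob

end Vale.Agent.P281.H364.TM
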