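import Vale.Agent.P281.H364.TM.Fin
import Vale.Agent.P281.H364.TM.LG
import Vale.Agent.P281.H349.TM.Ell
import Vale.Agent.P281.H89.TM.Dich
import Vale.Agent.P281.H68.TM.Six
import Vale.Agent.P281.H747.TM.MBase

/-!
# P281, project T-M, T12 (helper364): the final plug, with T1, T2, T3, T5, T6, T7
-/

open Vale.Agent.P281.H740.TM

namespace Vale.Agent.P281.H364.TM

/-- T8 and T10 give T-M. -/
theorem tm_of_flag (flag : FlagStmt) (restr : RestrStmt) : TMStmt :=
  tm_of H349.TM.ell H89.TM.dich t5 (H68.TM.theta coef ord) (H747.TM.mbaseStmt coef ord) flag restr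

end Vale.Agent.P281.H364.TM
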