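import Vale.Agent.P281.H364.TM.OrdT
import Vale.Agent.P281.H364.TM.Loc
import Vale.Agent.P281.H383.Gen.Base1
import Vale.Agent.P281.H303.Gen.Irr
import Vale.Agent.P281.H969.Gen.Fin
import Vale.Agent.P281.H76.Ord3

/-! P281, project T-M, block T5 (helper364): (L), the global form: if the orders of
`Θ ∧ (g^* dz)^w` along all the prime divisors over `D` are too large, then `|q|^(-2) |T|^(2/w)` is
integrable near every point over a general point of `D`. -/

open scoped Manifold ContDiff Topology ENNReal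
open Set Filter Metric MeasureTheory Vale.Agent.P281
open Vale.Agent.P281.H713 Vale.Agent.P281.H511.Gen Vale.Agent.P281.H308.TW
open Vale.Agent.P281.H740.TM
open Vale.Agent.P281.H64 (Cm)
open Vale.Agent.P281.H64.Gen (IsSmallSet IsAnalyticSet)

set_option linter.all false

noncomputable section

namespace Vale.Agent.P281.H364.TM

section
variable {n : ℕ} {X : Type} [TopologicalSpace X] [ChartedSpace (Cm n) X]
  [IsManifold 𝓘(ℂ, Cm n) ω X]

/-- a thin set is a null set in the charts -/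
theorem thin_null {A : Set X} (hA : H64.Thin.IsThinSet (Cm n) A) (x₀ : X) :
    volume {v | v ∈ (chartAt (Cm n) x₀).target ∧ (chartAt (Cm n) x₀).symm v ∈ A} = 0 := by
  set φ := chartAt (Cm n) x₀ with hφ
  refine measure_null_of_locally_null _ fun v hv => ?_
  obtain ⟨h, hh, h0, hev⟩ := hA.2 (φ.symm v)
  have hh : HolV (Cm n) h (φ.symm v) := hh
  have hs : φ.symm v ∈ φ.source := φ.map_target hv.1
  have hcs : Tendsto φ.symm (𝓝 v) (𝓝 (φ.symm v)) := φ.continuousAt_symm hv.1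
  have hcf : Tendsto φ (𝓝 (φ.symm v)) (𝓝 v) := by
    have := (φ.continuousAt hs).tendsto
    rwa [φ.right_inv hv.1] at this
  have han : AnalyticAt ℂ (h ∘ φ.symm) v := by
    have := (hh.rep hs).analyticAt
    rwa [← hφ, φ.right_inv hv.1] at this
  obtain ⟨t, ht, hball⟩ := Metric.eventually_nhds_iff_ball.1
    (han.eventually_analyticAt.and (hcs.eventually hev))
  have hnz : ∃ y ∈ ball v t, (h ∘ φ.symm) y ≠ 0 := by
    by_contra hcon
    push Not at hcon
    apply h0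
    filter_upwards [hcf.eventually (ball_mem_nhds _ ht), φ.open_source.mem_nhds hs] with z h1 h2
    have h3 := hcon _ h1
    rwa [Function.comp_apply, φ.left_inv h2] at h3
  have hnull : volume {y ∈ ball v t | (h ∘ φ.symm) y = 0} = 0 :=
    Vale.Agent.P285.H16.null_zero isOpen_ball (convex_ball _ _)
      (fun y hy => (hball y hy).1) hnz
  refine ⟨{v | v ∈ φ.target ∧ φ.symm v ∈ A} ∩ ball v t,
    inter_mem self_mem_nhdsWithin (mem_nhdsWithin_of_mem_nhds (ball_mem_nhds v ht)),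
    measure_mono_null ?_ hnull⟩
  rintro y ⟨⟨hy1, hy2⟩, hy3⟩
  exact ⟨hy3, (hball y hy3).2 hy2⟩

theorem cov_null {A : Set X} (hA : H64.Gen.Cov n A) (x₀ : X) :
    volume {v | v ∈ (chartAt (Cm n) x₀).target ∧ (chartAt (Cm n) x₀).symm v ∈ A} = 0 := by
  obtain ⟨H, hH, hsub⟩ := hA
  refine measure_mono_null ?_ (measure_iUnion_null fun k => thin_null (hH k) x₀)
  rintro v ⟨h1, h2⟩
  obtain ⟨k, hk⟩ := mem_iUnion.1 (hsub h2)
  exact mem_iUnion.2 ⟨k, h1, hk⟩

end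

section
variable {n p : ℕ} {X Z : Type} [TopologicalSpace X] [ChartedSpace (Cm n) X]
  [IsManifold 𝓘(ℂ, Cm n) ω X] [TopologicalSpace Z] [ChartedSpace (Cm p) Z]
  [IsManifold 𝓘(ℂ, Cm p) ω Z] {g : X → Z}

/-- **over the general point of `D` there are only prime divisors which dominate `D`** -/
theorem exists_gen [T2Space X] [CompactSpace X] [PreconnectedSpace X] [T2Space Z]
    (hg : ContMDiff 𝓘(ℂ, Cm n) 𝓘(ℂ, Cm p) ω g) (hsurj : Function.Surjective g) {D : Set Z}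
    (hD : J.IsPrime (Cm p) D) :
    ∃ V : Set Z, IsOpen V ∧ (V ∩ sm p D).Nonempty ∧ ∀ x, g x ∈ V → g x ∈ D →
      ∃ E, J.IsPrime (Cm n) E ∧ closure (g '' E) = D ∧ x ∈ E := by
  obtain ⟨q, rfl⟩ : ∃ q, p = q + 1 := by
    rcases p with _ | q
    · exfalso
      obtain ⟨y, -, g, -, hdg⟩ := hD.2.2.nonempty
      exact hdg (ContinuousLinearMap.ext fun v => by
        rw [Subsingleton.elim v 0, map_zero, map_zero])
    · exact ⟨q, rfl⟩
  have hex := H383.Gen.exists_notMem hsurj hD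
  have hyp := isHyp_preimage hg hD.2.1 (not_eventually_preimage hg hD.2.1 hex)
  have hAn := isAnalyticSet_preimage hg (isAnalyticSet_prime hD)
  set 𝒜 : Set (Set X) := {P | J.IsPrime (Cm n) P ∧ P ⊆ g ⁻¹' D} with h𝒜
  have hfin : 𝒜.Finite := by
    refine H969.Gen.fin n X _ (isThinSet_of_analytic hAn ?_)
    obtain ⟨x, hx⟩ := hex
    intro h
    exact hx (show x ∈ g ⁻¹' D by rw [h]; trivial)
  have hcl : IsClosed (⋃₀ 𝒜) := by
    rw [sUnion_eq_biUnion]
    exact hfin.isClosed_biUnion fun P hP => hP.1.1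
  have hcov : g ⁻¹' D ⊆ ⋃₀ 𝒜 := by
    intro x hx
    refine hcl.closure_subset (mem_closure_iff_nhds.2 fun N hN => ?_)
    obtain ⟨f, hf, hf0, hfD⟩ := hyp x
    obtain ⟨z, hzN, e, he, he0, hde, heD⟩ := exists_smooth hf hf0 hfD hx hN
    obtain ⟨P, hP, hPD, hPe⟩ := H303.Gen.irr n X (g ⁻¹' D) (hD.1.preimage hg.continuous) hyp z e
      he he0 hde heD
    exact ⟨z, hzN, P, ⟨hP, hPD⟩, (isLocalEq_mem_iff hPe).self_of_nhds.2 he0⟩
  set ℬ : Set (Set X) := {P ∈ 𝒜 | g '' P ≠ D} with hℬ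
  have hℬf : ℬ.Finite := hfin.subset fun P hP => hP.1
  have himc : ∀ P : Set X, IsClosed P → IsClosed (g '' P) := fun P hP =>
    (hP.isCompact.image hg.continuous).isClosed
  have hclB : IsClosed (⋃ P ∈ ℬ, g '' P) :=
    hℬf.isClosed_biUnion fun P hP => himc P hP.1.1.1
  have hnot : ¬ D ⊆ ⋃ P ∈ ℬ, g '' P := by
    intro hcon
    obtain ⟨P, hP, hPD⟩ := H383.Gen.exists_dominating hℬf hg
      (fun P hP => isAnalyticSet_prime hP.1.1) hD
      (fun P hP => image_subset_iff.2 hP.1.2) (fun y hy => by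
        have h1 := hcon hy
        simp only [mem_iUnion] at h1
        obtain ⟨P, hP, h2⟩ := h1
        exact ⟨P, hP, h2⟩)
    exact hP.2 hPD
  obtain ⟨y, hyD, hy⟩ := not_subset.1 hnot
  refine ⟨(⋃ P ∈ ℬ, g '' P)ᶜ, hclB.isOpen_compl, ?_, ?_⟩
  · obtain ⟨z, hz1, hz2⟩ := mem_closure_iff_nhds.1 (subset_closure_sm hD.2.1 hyD) _
      (hclB.isOpen_compl.mem_nhds hy)
    exact ⟨z, hz1, hz2⟩
  · intro x hxV hxD
    obtain ⟨P, hP, hxP⟩ := hcov hxD
    refine ⟨P, hP.1, ?_, hxP⟩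
    by_contra hne
    apply hxV
    simp only [mem_iUnion]
    refine ⟨P, ⟨hP, fun h => hne ?_⟩, mem_image_of_mem g hxP⟩
    rw [h, hD.1.closure_eq]

end

section
variable {p : ℕ} {X Z : Type} [TopologicalSpace X] [ChartedSpace (Cm (p + 1)) X]
  [IsManifold 𝓘(ℂ, Cm (p + 1)) ω X] [TopologicalSpace Z] [ChartedSpace (Cm p) Z]
  [IsManifold 𝓘(ℂ, Cm p) ω Z] {g : X → Z} {S : Set Z} {w : ℕ} {Θ : X → ℂ} {Δ : Set X → ℝ}

/-- the bound at a good point -/
theorem bd_good' (hg : ∀ x, HolM (Cm (p + 1)) (Cm p) g x)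
    (hL : LocFam (p + 1) (IsCf (p + 1) p g S w Θ)) {E : Set X} {D : Set Z} {k o : ℕ} {y : X}
    (h : GoodAt p g S w Θ E D k o y) {q : Z → ℂ} (hq : J.IsLocalEq (Cm p) D q (g y)) {H : X → ℂ}
    (hH : IsCf (p + 1) p g S w Θ y H) {𝒯 : Finset (Set X)} {e : Set X → X → ℂ} {K : Set X → ℕ}
    (hK : ∀ E, K E ≠ 0 → E ∈ 𝒯) (he : ∀ E ∈ 𝒯, J.IsLocalEq (Cm (p + 1)) E (e E) y)
    (hko : w * k ≤ o + K E) :
    ∃ C : ℝ, ∀ᶠ v in 𝓝 y, q (g v) ≠ 0 →
      ‖H v‖ ^ 1 * ∏ E ∈ 𝒯, ‖e E v‖ ^ K E ≤ C * ‖q (g v)‖ ^ w := by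
  obtain ⟨hyE, e', d', u', H', v', he', hde', hd', hdd', hu', hux', hfac', hH', hv', hvx', hHv',
    hsub'⟩ := h
  obtain ⟨B, hB, -, hBe⟩ := H76.S.prod_split (k := K) hK he he'
  obtain ⟨c₁, hc₁, hc₁0, hc₁e⟩ := H76.unit_ratio_red hq hd'
  obtain ⟨c₂, hc₂, hc₂0, hc₂e⟩ := hL.unit y H' H (isCf_of_isCoef hH') hH
  have hey : e' y = 0 := (isLocalEq_mem_iff he').self_of_nhds.1 hyE
  have heh : HolV (Cm (p + 1)) e' y := isLocalEq_holAt he'
  have hb : HolV (Cm (p + 1)) (fun z => c₁ (g z) * u' z) y :=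
    HolV.mul (HolV.comp (E' := Cm p) hc₁ (hg y)) hu'
  have hb0 : c₁ (g y) * u' y ≠ 0 := mul_ne_zero hc₁0 hux'
  have ha : HolV (Cm (p + 1)) (fun z => c₂ z * v' z * B z) y := (hc₂.mul hv').mul hB
  set b : ℝ := ‖c₁ (g y) * u' y‖ / 2 with hbd
  have hb2 : 0 < b := half_pos (norm_pos_iff.2 hb0)
  set A : ℝ := ‖c₂ y * v' y * B y‖ + 1 with hAd
  refine ⟨A / b ^ w, ?_⟩
  filter_upwards [hBe, (hg y).continuousAt.eventually hc₁e, hc₂e, hfac', hHv',
    hb.continuousAt.norm.eventually_const_lt (half_lt_self (norm_pos_iff.2 hb0)),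
    ha.continuousAt.norm.eventually_lt_const (lt_add_one _),
    heh.continuousAt.norm.eventually_lt_const (show ‖e' y‖ < 1 by rw [hey, norm_zero]; exact one_pos)]
    with v a1 a2 a3 a4 a5 a6 a7 a8 hqv
  have e1 : ‖H v‖ ^ 1 * ∏ E ∈ 𝒯, ‖e E v‖ ^ K E =
      ‖e' v‖ ^ (o + K E) * ‖c₂ v * v' v * B v‖ := by
    have e2 : ∏ E ∈ 𝒯, ‖e E v‖ ^ K E = ‖∏ E ∈ 𝒯, e E v ^ K E‖ := by
      rw [norm_prod]
      simp only [norm_pow]
    rw [pow_one, e2, ← norm_mul, a1, a3, a5, ← norm_pow, ← norm_mul]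
    congr 1
    rw [pow_add]; ring
  have e3 : ‖q (g v)‖ ^ w = ‖e' v‖ ^ (w * k) * ‖c₁ (g v) * u' v‖ ^ w := by
    rw [a2, a4, show c₁ (g v) * (e' v ^ k * u' v) = e' v ^ k * (c₁ (g v) * u' v) by ring,
      norm_mul, mul_pow, norm_pow, ← pow_mul, mul_comm k w]
  rw [e1, e3]
  have h1 : ‖e' v‖ ^ (o + K E) ≤ ‖e' v‖ ^ (w * k) :=
    pow_le_pow_of_le_one (norm_nonneg _) a8.le hko
  have h2 : b ^ w ≤ ‖c₁ (g v) * u' v‖ ^ w := pow_le_pow_left₀ hb2.le a6.le w
  have hA0 : 0 < A := by positivity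
  calc ‖e' v‖ ^ (o + K E) * ‖c₂ v * v' v * B v‖ ≤ ‖e' v‖ ^ (w * k) * A :=
        mul_le_mul h1 a7.le (norm_nonneg _) (by positivity)
    _ = A / b ^ w * (‖e' v‖ ^ (w * k) * b ^ w) := by
        field_simp
    _ ≤ A / b ^ w * (‖e' v‖ ^ (w * k) * ‖c₁ (g v) * u' v‖ ^ w) := by
        refine mul_le_mul_of_nonneg_left (mul_le_mul_of_nonneg_left h2 (by positivity))
          (by positivity)

/-- **(L)** -/
theorem lint_glob {e₀ : Cm (p + 1) ≃L[ℂ] (Cm p × ℂ)}
    (hfib : H511.Surf.IsFibration (Cm (p + 1)) (Cm p) g Δ) (hS : IsSmallSet (Cm p) S)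
    (hP : H64.IsProperFibration (n := p + 1) (p := p) g S) (hw : 0 < w) (hΘ : RF g S e₀ w Θ)
    {D : Set Z} (hD : J.IsPrime (Cm p) D)
    (hneg : ∀ (E : Set X) (k o : ℕ) (x : X), J.IsPrime (Cm (p + 1)) E → closure (g '' E) = D →
      GoodAt p g S w Θ E D k o x → (k : ℝ) < Δ E + o / w) {V : Set Z} (hV : IsOpen V)
    (hVE : ∀ x, g x ∈ V → g x ∈ D → ∃ E, J.IsPrime (Cm (p + 1)) E ∧ closure (g '' E) = D ∧ x ∈ E)
    {x : X} (hxV : g x ∈ V) {q : Z → ℂ} (hq : J.IsLocalEq (Cm p) D q (g x)) :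
    ∃ ρ > 0, ball (chartAt (Cm (p + 1)) x x) ρ ⊆ (chartAt (Cm (p + 1)) x).target ∧
      ∫⁻ v in ball (chartAt (Cm (p + 1)) x x) ρ,
        (‖q (g ((chartAt (Cm (p + 1)) x).symm v))‖ₑ ^ 2)⁻¹ *
          ‖Tc (n := p + 1) (p := p) g w Θ x (g x) ((chartAt (Cm (p + 1)) x).symm v)‖ₑ ^
            (2 / w : ℝ) < ⊤ := by
  classical
  have hcov := preimage_cov' ⟨Δ, hfib⟩ hS hP
  have hcf := coef p X Z g Δ S e₀ w Θ hfib hS hP hw hΘ
  have hfib' := hfib
  obtain ⟨⟨_, _⟩, _, _, -, hgh, hgf, hΔ⟩ := hfib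
  have hg : ∀ x, HolM (Cm (p + 1)) (Cm p) g x := fun x => hgh x
  have hgc : ∀ x, ContinuousAt g x := fun x => (hg x).continuousAt
  have hL := locFam (n := p + 1) (p := p) hg hP.isClosed (fun x hx => hP.submersive x hx) e₀
    hcov hw hΘ
  have hsurj : Function.Surjective g := fun z => (hgf z).nonempty
  obtain ⟨H, hH, hHe⟩ := ext_T (n := p + 1) (p := p) hg hP.isClosed
    (fun x hx => hP.submersive x hx) e₀ hcov hw hΘ (mem_chart_source (Cm (p + 1)) x)
    (mem_chart_source (Cm p) (g x))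
  have hHcf : IsCf (p + 1) p g S w Θ x H :=
    ⟨x, g x, mem_chart_source _ _, mem_chart_source _ _, hH, hHe⟩
  set φ := chartAt (Cm (p + 1)) x with hφ
  have hxs : x ∈ φ.source := mem_chart_source _ x
  have hcs : Tendsto φ.symm (𝓝 (φ x)) (𝓝 x) := by
    have := (φ.continuousAt_symm (φ.map_source hxs)).tendsto
    rwa [φ.left_inv hxs] at this
  -- it is enough to bound the integral of `H`
  suffices key : ∃ ρ > 0, ball (φ x) ρ ⊆ φ.target ∧
      ∫⁻ v in ball (φ x) ρ, (‖q (g (φ.symm v))‖ₑ ^ 2)⁻¹ * ‖H (φ.symm v)‖ₑ ^ (2 / w : ℝ) < ⊤ by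
    obtain ⟨ρ, hρ, hρt, hint⟩ := key
    obtain ⟨r, hr, hball⟩ := Metric.eventually_nhds_iff_ball.1 (hcs.eventually hHe)
    refine ⟨min ρ r, lt_min hρ hr, (ball_subset_ball (min_le_left _ _)).trans hρt, ?_⟩
    refine lt_of_le_of_lt ?_ hint
    refine le_trans (le_of_eq ?_) (lintegral_mono_set (ball_subset_ball (min_le_left ρ r)))
    refine lintegral_congr_ae ?_
    have hae : ∀ᵐ v ∂(volume.restrict (ball (φ x) (min ρ r))), g (φ.symm v) ∉ S := by
      rw [ae_restrict_iff' measurableSet_ball, ae_iff]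
      refine measure_mono_null ?_ (cov_null hcov x)
      intro v hv
      simp only [mem_setOf_eq, Classical.not_imp, not_not] at hv
      exact ⟨hρt (ball_subset_ball (min_le_left _ _) hv.1), hv.2⟩
    filter_upwards [hae, ae_restrict_mem measurableSet_ball] with v hv1 hv2
    rw [hball v (ball_subset_ball (min_le_right _ _) hv2) hv1]
  by_cases hne : ∃ x, g x ∉ S ∧ Θ x ≠ 0
  swap
  · -- the form is zero
    push Not at hne
    have hH0 : ∀ᶠ v in 𝓝 x, H v = 0 := by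
      have hd : Dense (g ⁻¹' S)ᶜ := hcov.dense_compl
      filter_upwards [hHe.eventually_nhds, hH.eventually] with v a1 a2
      refine eq_of_freq' a2.continuousAt continuousAt_const
        (((mem_closure_iff_frequently.1 (hd v)).and_eventually a1).mono ?_)
      rintro t ⟨b1, b2⟩
      rw [← b2 b1, Tc, hne t b1, mul_zero, zero_div]
    obtain ⟨r, hr, hball⟩ := Metric.eventually_nhds_iff_ball.1
      ((hcs.eventually hH0).and (φ.open_target.mem_nhds (φ.map_source hxs)))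
    refine ⟨r, hr, fun v hv => (hball v hv).2, ?_⟩
    rw [setLIntegral_congr_fun measurableSet_ball (g := fun _ => 0) (fun v hv => by
      simp only
      rw [(hball v hv).1, enorm_zero, ENNReal.zero_rpow_of_pos (by positivity), mul_zero])]
    simp
  have hstd : Std p g Δ S e₀ w Θ := ⟨hfib', hS, hP, hw, hΘ, hne⟩
  have hord := ord p X Z g Δ S e₀ w Θ hstd
  have hch : ∀ E : Set X, ∃ k o : ℕ, J.IsPrime (Cm (p + 1)) E → closure (g '' E) = D →
      (E ⊆ closure {x | GoodAt p g S w Θ E D k o x} ∧ (k : ℝ) < Δ E + o / w) := by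
    intro E
    by_cases hE : J.IsPrime (Cm (p + 1)) E ∧ closure (g '' E) = D
    · obtain ⟨k, o, -, -, -, hden, -⟩ := hord E D hE.1 hD hE.2
      refine ⟨k, o, fun _ _ => ⟨hden, ?_⟩⟩
      obtain ⟨y, hy⟩ := hE.1.2.2.nonempty
      obtain ⟨x', -, hx'⟩ := mem_closure_iff_nhds.1 (hden hy.1) univ univ_mem
      exact hneg E k o x' hE.1 hE.2 hx'
    · exact ⟨0, 0, fun h1 h2 => absurd ⟨h1, h2⟩ hE⟩
  choose k o hko using hch
  set K : Set X → ℕ := fun E => if J.IsPrime (Cm (p + 1)) E ∧ closure (g '' E) = D then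
    w * k E - o E else 0 with hKd
  have hwr : (0 : ℝ) < w := by exact_mod_cast hw
  have hlt : ∀ E, J.IsPrime (Cm (p + 1)) E ∧ closure (g '' E) = D →
      (w : ℝ) * k E < w * Δ E + o E := by
    intro E hE
    have h1 := (hko E hE.1 hE.2).2
    have h2 := mul_lt_mul_of_pos_left h1 hwr
    rw [mul_add, mul_div_cancel₀ _ hwr.ne'] at h2
    exact h2
  have hΔ1 : ∀ E, Δ E ≤ 1 := fun E => by
    obtain ⟨r, hr, -, h1⟩ := hΔ.2.2.1 E
    rw [hr]; exact_mod_cast h1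
  have hKlt : ∀ E, K E < w := by
    intro E
    simp only [hKd]
    split_ifs with hE
    · have h1 := hlt E hE
      have h2 : (w : ℝ) * k E < w + o E := by
        have := mul_le_mul_of_nonneg_left (hΔ1 E) hwr.le
        linarith
      have h3 : w * k E < w + o E := by exact_mod_cast h2
      omega
    · exact hw
  have hK0 : ∀ E, K E ≠ 0 → Δ E ≠ 0 := by
    intro E hKE hΔE
    apply hKE
    simp only [hKd]
    split_ifs with hE
    · have h1 := hlt E hE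
      rw [hΔE, mul_zero, zero_add] at h1
      have h3 : w * k E < o E := by exact_mod_cast h1
      omega
    · rfl
  have hex : ∀ E, ∃ e : X → ℂ, Δ E ≠ 0 → J.IsLocalEq (Cm (p + 1)) E e x := by
    intro E
    by_cases hE : Δ E ≠ 0
    · obtain ⟨e, he⟩ := (hΔ.2.1 E hE).2.1 x
      exact ⟨e, fun _ => he⟩
    · exact ⟨0, fun h => absurd h hE⟩
  choose e he using hex
  have hne' : ∃ x, g x ∉ D := H383.Gen.exists_notMem hsurj hD
  have hDen : HolV (Cm (p + 1)) (fun v => q (g v)) x :=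
    HolV.comp (E' := Cm p) (h := q) (isLocalEq_holAt hq) (hg x)
  have hev𝒯 : ∀ᶠ z in 𝓝 x, ∀ E ∈ hΔ.1.toFinset, J.IsLocalEq (Cm (p + 1)) E (e E) z := by
    rw [Filter.eventually_all_finset]
    exact fun E hE => isLocalEq_eventually (he E (hΔ.1.mem_toFinset.1 hE))
  refine lint_loc hΔ (T := H) (Den := fun v => q (g v)) (x := x) (w := w) (a := 1) (M := w) hw
    one_pos (one_mul w).symm hDen (fun hcon => ?_) (hH.eventually.mono fun z h _ => h)
    (e := e) (K := K) hKlt he ?_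
  · apply not_eventually_preimage hgh hD.2.1 hne' x
    filter_upwards [hcon, (hgc x).eventually (isLocalEq_mem_iff hq)] with z a1 a2
    exact a2.2 a1
  · filter_upwards [hev𝒯.eventually_nhds, (hL.near x H hHcf).eventually_nhds,
      ((hgc x).eventually (isLocalEq_eventually hq)).eventually_nhds,
      (hgc x).eventually (isLocalEq_mem_iff hq), (hgc x).eventually (hV.mem_nhds hxV)]
      with z a1 a2 a3 a4 a5 hz
    obtain ⟨E, hE, hED, hzE⟩ := hVE z a5 (a4.2 hz)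
    obtain ⟨hden, -⟩ := hko E hE hED
    rw [mem_closure_iff_nhds]
    intro U hU
    obtain ⟨y, ⟨⟨hyU, b1⟩, b2, b3⟩, hy⟩ := mem_closure_iff_nhds.1 (hden hzE) _
      (inter_mem (inter_mem hU a1) (inter_mem a2 a3))
    have b1 : ∀ E ∈ hΔ.1.toFinset, J.IsLocalEq (Cm (p + 1)) E (e E) y := b1
    have b3 : J.IsLocalEq (Cm p) D q (g y) := b3
    have hyD : g y ∈ D := by
      rw [← hED]; exact subset_closure (mem_image_of_mem g hy.1)
    refine ⟨y, hyU, (isLocalEq_mem_iff b3).self_of_nhds.1 hyD, ?_⟩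
    refine bd_good' hg hL hy b3 b2 (𝒯 := hΔ.1.toFinset) (e := e) (K := K)
      (fun E h => hΔ.1.mem_toFinset.2 (hK0 E h)) b1 ?_
    simp only [hKd, if_pos (show J.IsPrime (Cm (p + 1)) E ∧ closure (g '' E) = D from ⟨hE, hED⟩)]
    omega

end

end Vale.Agent.P281.H364.TM
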